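import Vale.Agent.P354FX.Pt
import Vale.Agent.P354BO.Q2

/-!
The comparison of the two frames at a point of a state.
-/

set_option linter.unusedSimpArgs false

noncomputable section

namespace Vale.Agent.P354FX

open Filter Set ComplexConjugate Sum
open Vale.Agent.P354XG Vale.Agent.P354XG.Geo Vale.Agent.P354XD Vale.Agent.P354XR Vale.Agent.P354XI
open Vale.Agent.P354Z
open Vale.Agent.P354FA (Lt val Ps Dl)
open Vale.Agent.P354YK (out fv_rs cone_pos cone_is)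
open Vale.Agent.P354YA (fm f4_hom)
open Vale.Agent.P354CV (fv_rf hs_on js_on ho_on)
open Vale.Agent.P354BO (q2_succ q2_mono q2_der q2_nonneg)

variable {c : Cs} {E : Est} {x : E6} {ρ δ : ℝ}

theorem Pe.o2 (h : Pe c E x ρ δ) : x ∈ E.O2 := (h.sh.up x h.o1 h.fa).1

/-- The data at the point. -/
def Pe.dt (h : Pe c E x ρ δ) (a b al be q : Sm (on {x})) : Dt where
  A := Sm (on {x})
  A' := Sm (on E.O2)
  S := ge {x} E.g
  F2 := fm (rx h.o2).rix E.F2
  F1 := fm (rx h.o1).rix E.F1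
  a := a
  b := b
  al := al
  be := be
  q := q
  φ := ev0 x
  G0 := out (E.K2 c)
  ψ := evA h.o2

namespace Pe
variable (h : Pe c E x ρ δ)
include h

theorem g1 : GHP.Hom E.G1 ((fm (rx h.o1).rix E.F1).ghp (ge {x} E.g)) (rx h.o1).rix :=
  (ge_hom h.sh.co1 h.eqs.v1 h.o1).ghp _
theorem g2 : GHP.Hom E.G2 ((fm (rx h.o2).rix E.F2).ghp (ge {x} E.g)) (rx h.o2).rix :=
  (ge_hom h.sh.co2 h.eqs.v2 h.o2).ghp _

theorem M0 : 0 < c.M := (abs_nonneg _).trans_lt h.ok.aM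
theorem r1 : 10 * c.M + 10 ≤ x.2.1 := by linarith [h.ok.R1, h.fa.1]
theorem De : P354BF.De E.M E.a x.2.1 ≠ 0 := by
  have := h.eqs.par
  refine ne_of_gt ?_
  unfold P354BF.De
  nlinarith [h.r1, h.M0, abs_nonneg E.a]

theorem k2 : (E.K2 c).Is := kk_is (cone_is h.sh.co2) (P354YK.pO_is h.sh.co2 _ _ _)
theorem n1 : nm (evA h.o1) (E.K1 c) = tt E.M E.a x := (nm_eq h.sh.co1 h.o1 _ _ _ _).1
theorem n2 : nm (evA h.o2) (E.K2 c) = tt E.M E.a x := (nm_eq h.sh.co2 h.o2 _ _ _ _).1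

theorem tt_is : (tt E.M E.a x).Is := h.n2 ▸ nm_is h.k2 (by
  have : evA h.o2 (E.K2 c).De = _ := congrFun h.n2 8
  rw [this]
  exact Complex.ofReal_ne_zero.2 h.De)

/-- The components in the two charts. -/
theorem rel (i : Fin 4) (X : Vec (Sm (on {x}))) (u : Op (Sm (on {x}))) (e : u.X = X)
    (e' : f4 ((fm (rx h.o1).rix E.F1).ghp (ge {x} E.g)) i = (ge {x} E.g).act u) (j : Fin 4) :
    evA h.o1 (cm (hp _) (E.p1 c) (f4 E.G1 i) (e6 j)) +
      evA h.o1 (cm (hp _) (E.p1 c) (f4 E.G1 i) (e6 1)) * ch (tt E.M E.a x) j =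
    ∑ k, ev0 x (co (ge {x} E.g) (fm (rx h.o2).rix E.F2) X k) *
      evA h.o2 (cm (hp _) (E.p2 c) (f4 E.G2 k) (e6 j)) := by
  have H1 := (rx h.o1).hp (cone_pos h.sh.co1).off
  have H2 := (rx h.o2).hp (cone_pos h.sh.co2).off
  have a := congrArg (ev0 x) (cm_span (p := pim (rx h.o2).rix (E.p2 c))
    (hp_is ((rx h.o2).off (cone_pos h.sh.co2).off)) (ge_is h.sh.co2 h.eqs.v2 h.o2)
    ((ge_hom h.sh.co2 h.eqs.v2 h.o2).nl h.eqs.w2.nl) u j)
  have cu : cut c.M (E.M, E.a, x.2.1) = 1 := by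
    have := h.M0
    rw [cut, P354XT.up_one (by linarith) (by linarith [h.r1]),
      P354XT.dn_one (by linarith) (by linarith [h.eqs.par.2]), one_mul]
  have v1 : evA h.o1 (E.p1 c).h1 = hs c.M (E.M, E.a, x.2.1) := by
    simp only [Est.p1, pI, evA_ap, fv_rf h.sh.co1 (hs_on h.M0 E.M E.a) h.o1]
  have v2 : evA h.o1 (E.p1 c).j1 = js c.M (E.M, E.a, x.2.1) := by
    simp only [Est.p1, pI, evA_ap, fv_rf h.sh.co1 (js_on h.M0 E.M E.a) h.o1]
  have v3 : evA h.o2 (E.p2 c).h1 = (-(4 * c.M ^ 2 / x.2.1 ^ 2) : ℝ) := by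
    simp only [Est.p2, pO, evA_ap, fv_rf h.sh.co2 (ho_on c.M) h.o2]
  have v4 : evA h.o2 (E.p2 c).j1 = 0 := map_zero _
  have s1 : ev0 x (hp _).kc.s = tt E.M E.a x 2 := by
    rw [← H2.xs.2.1, ev0_rix]; exact congrFun h.n2 2
  have s2 : ev0 x (hp _).kc.sb = tt E.M E.a x 3 := by
    rw [← H2.xs.2.2, ev0_rix]; exact congrFun h.n2 3
  simp only [← ev0_rix, cm_hom H1 pim_hom (f4_hom h.g1 i), cm_hom H2 pim_hom (f4_hom h.g2 _)]
  rw [cm_chg (p := pim (rx h.o1).rix (E.p1 c)), map_sum, map_add, map_mul] at a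
  simp only [map_mul, e] at a
  rw [e']
  refine Eq.trans (congrArg₂ (· + ·) rfl (congrArg₂ (· * ·) rfl ?_)) a
  fin_cases j <;> simp [pim, ev0_rix h.o1, ev0_rix h.o2, v1, v2, v3, v4, s1, s2, ch, hs, js, cu, ev_ii]
  all_goals simp [tt, div_eq_mul_inv, sq]
  ring

theorem cl1 (b : Bool) (j : Fin 4) : ‖evA h.o1 (cm (hp _) (E.p1 c) (f4 E.G1 (cond b 2 0)) (e6 j)) -
    K0 (tt E.M E.a x) b j‖ ≤ δ := by
  rw [← h.n1, show K0 (nm _ (E.K1 c)) b j = _ from (cm_kerr (cone_is h.sh.co1) b j).symm, ← map_sub]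
  exact h.d1 (_, e6 j)

theorem cl2 (i j : Fin 4) :
    ‖evA h.o2 (cm (hp _) (E.p2 c) (f4 E.G2 i) (e6 j)) - B0 (tt E.M E.a x) i j‖ ≤ δ := by
  rw [← h.n2, show B0 (nm _ (E.K2 c)) i j = _ from (cm_out (cone_is h.sh.co2) i j).symm, ← map_sub]
  exact h.d2 (i, e6 j)

theorem unit : IsUnit (E.K2 c).P2 := by
  have z := IsUnit.of_mul_eq_one _ h.k2.z_ze
  have m : IsUnit (E.K2 c).M := (rs_cst fun _ => (E.M : ℂ)).unit (Eventually.of_forall fun _ =>
    Complex.ofReal_ne_zero.2 ((abs_nonneg _).trans_lt h.eqs.par.1).ne')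
  have t : IsUnit (2 : Sm (on E.O2)) := by
    rw [← map_ofNat (algebraMap ℂ _) 2]; exact (IsUnit.mk0 (2 : ℂ) two_ne_zero).map _
  exact ((((t.mul m).mul z).mul z).mul z).neg

theorem p2 {K : ℝ} (d : δ ≤ c.M / 2) (k : 8 * ρ ^ 3 / c.M ≤ K) :
    1 ≤ K * ‖evA h.o2 (E.K2 c).P2‖ := by
  have m0 := h.M0
  have mM : c.M / 2 ≤ E.M := by linarith [(abs_le.1 h.M).1]
  have r0 : 0 ≤ x.2.1 := by linarith [h.r1]
  have z := congrArg (‖evA h.o2 ·‖) h.k2.z_ze
  have u : ‖evA h.o2 ((E.K2 c).r - ii _ * (E.K2 c).a * (E.K2 c).x)‖ ≤ 2 * ρ := by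
    have e0 : evA h.o2 (E.K2 c).r = _ := congrFun h.n2 0
    have e1 : evA h.o2 (E.K2 c).x = _ := congrFun h.n2 1
    have e7 : evA h.o2 (E.K2 c).a = _ := congrFun h.n2 7
    have := h.eqs.par
    rw [map_sub, map_mul, map_mul, ev_ii, e0, e1, e7]
    refine (norm_sub_le _ _).trans ?_
    simp only [tt, Matrix.cons_val, norm_mul, Complex.norm_I, Complex.norm_real, one_mul,
      Real.norm_eq_abs, abs_of_nonneg r0]
    nlinarith [h.r, h.r1, oc_le h.tt_is, abs_nonneg E.a]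
  have m : evA h.o2 (E.K2 c).M = E.M := (nm_eq h.sh.co2 h.o2 E.M E.a 0 0).2
  simp only [map_mul, norm_mul, map_one, norm_one] at z
  simp only [KC.P2, map_neg, norm_neg, map_mul, norm_mul, map_ofNat, m, Complex.norm_ofNat,
    Complex.norm_of_nonneg (show 0 ≤ E.M by linarith)]
  have z0 := norm_nonneg (evA h.o2 (E.K2 c).z)
  have z1 := z.symm.trans_le (mul_le_mul_of_nonneg_left u z0)
  have k0 : 0 ≤ K := le_trans (by have := r0.trans h.r; positivity) k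
  generalize ‖evA h.o2 (E.K2 c).z‖ = ζ at z0 z1
  rw [div_le_iff₀ m0] at k
  nlinarith [mul_le_mul_of_nonneg_right k (pow_nonneg z0 3), one_le_pow₀ (n := 3) z1,
    mul_nonneg (mul_nonneg k0 (show 0 ≤ 2 * E.M - c.M by linarith)) (pow_nonneg z0 3)]

theorem df (a b al be q) (w : List Lt) (k : ℕ) :
    (h.dt a b al be q).df (h.dt a b al be q).G2 w k = dv c E x w k :=
  (congrArg (‖· - _‖) ((congrArg (ev0 x) (val_hom h.g2 false w k).symm).trans
    (ev0_rix h.o2 _))).trans (congrArg norm (map_sub (evA h.o2) _ _).symm)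

theorem wg (a b al be q) (w : List Lt) (k : ℕ) :
    (h.dt a b al be q).φ (wG (h.dt a b al be q).G1 (w.map inl) (Ps (h.dt a b al be q).G1 k)) =
      fv (wG E.G1 (w.map inl) (Ps E.G1 k)) x := by
  rw [← evA_ap h.o1, ← ev0_rix, wG_hom h.g1, Ps_hom h.g1]; rfl

end Pe

/-- The decomposition at the point. -/
theorem dec (M0 ρ : ℝ) (n : ℕ) : ∃ δ0 > 0, ∃ K, ∀ c E x δ, δ ≤ δ0 → c.M = M0 →
    ∀ h : Pe c E x ρ δ, ∃ a b al be q, (h.dt a b al be q).Ok n K ∧ ‖ev0 x a‖ ≤ K * δ ∧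
      ‖ev0 x b‖ ≤ K * δ := by
  obtain ⟨L, l1, hL⟩ := coef (2 * ρ ^ 2)
  obtain ⟨K, ⟨k1, k2⟩, k3⟩ := (((ev_len n fun w _ => ev_le 4 fun k _ => bd_out M0 w k).and
    (eventually_ge_atTop (2 * L ^ 2))).and (eventually_ge_atTop (8 * ρ ^ 3 / M0))).exists
  rcases le_or_gt M0 0 with m0 | m0
  · exact ⟨1, one_pos, 0, fun c E x δ _ e h => absurd (e ▸ h.M0) m0.not_gt⟩
  refine ⟨min (M0 / 2) (1 / (4 * L ^ 2)), by positivity, K, fun c E x δ d e h => ?_⟩
  have d0 : 0 ≤ δ := (abs_nonneg _).trans h.M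
  have d1 : 4 * L ^ 2 * δ ≤ 1 := by
    have := d.trans (min_le_right _ _)
    rwa [le_div_iff₀' (by positivity)] at this
  have d2 : L * δ ≤ 1 / 4 := by nlinarith [mul_nonneg d0 (show 0 ≤ L ^ 2 - L by nlinarith)]
  obtain ⟨t1, t2, t3⟩ := hL _ (tt_le h.tt_is h.eqs.par.1 h.eqs.par.2 h.an h.r1 h.r) h.tt_is
  have hS := ge_is h.sh.co2 h.eqs.v2 h.o2
  have N1 := (ge_hom h.sh.co1 h.eqs.v1 h.o1).wn h.eqs.w1
  have N2 := (ge_hom h.sh.co2 h.eqs.v2 h.o2).wn h.eqs.w2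
  have ev := ev0_ev x
  have t := fun b X u e e' => t3 δ (by linarith) _ b _ _ h.cl2 (h.cl1 b)
    (h.rel (cond b 2 0) X u e e')
  have c0 := t false _ _ rfl rfl 0
  have c3 := t false _ _ rfl rfl 3
  have c4 := t true _ _ rfl rfl 0
  have c5 := t true _ _ rfl rfl 2
  clear t t3
  generalize hF1 : fm (rx h.o1).rix E.F1 = F1 at N1
  generalize hF2 : fm (rx h.o2).rix E.F2 = F2 at N2
  generalize hs : ge {x} E.g = S at N1 N2 hS
  have sc : S.c = cj := hs ▸ rfl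
  replace c0 : ‖ev0 x (-S.dot F1.l F2.n) - tt E.M E.a x 6 * tt E.M E.a x 8‖ ≤ L * δ := by
    subst hF1 hF2 hs; exact c0
  replace c3 : ‖ev0 x (S.dot F1.l F2.m) - 0‖ ≤ L * δ := by subst hF1 hF2 hs; exact c3
  replace c4 : ‖ev0 x (-S.dot F1.m F2.n) - 0‖ ≤ L * δ := by subst hF1 hF2 hs; exact c4
  replace c5 : ‖ev0 x (S.dot F1.m F2.mb) - 1‖ ≤ L * δ := by subst hF1 hF2 hs; exact c5
  rw [sub_zero] at c3 c4
  rw [map_neg, norm_neg] at c4
  have nc : ∀ f, ‖ev0 x (S.c f)‖ = ‖ev0 x f‖ := fun f => by rw [sc, ev.cj, Complex.norm_conj]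
  have a1 := norm_sub_norm_le (ev0 x (-S.dot F1.l F2.n)) (tt E.M E.a x 6 * tt E.M E.a x 8)
  have a2 := norm_sub_norm_le (tt E.M E.a x 6 * tt E.M E.a x 8) (ev0 x (-S.dot F1.l F2.n))
  rw [norm_sub_rev] at a2
  have a3 : 1 ≤ 2 * L * ‖ev0 x (-S.dot F1.l F2.n)‖ := by nlinarith
  obtain ⟨be, h1⟩ := (ev.loc (-S.dot F1.l F2.n) fun e => by
    rw [e, norm_zero] at a3; linarith).exists_right_inv
  have b1 : ‖ev0 x be‖ ≤ 2 * L := by
    have := congrArg (‖ev0 x ·‖) h1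
    simp only [map_mul, norm_mul, map_one, norm_one] at this
    nlinarith [norm_nonneg (ev0 x be)]
  obtain ⟨a, ha⟩ : ∃ a, a = be * S.dot F1.l F2.m := ⟨_, rfl⟩
  have b2 : ‖ev0 x a‖ ≤ 2 * L ^ 2 * δ := by
    rw [ha, map_mul, norm_mul]
    exact (mul_le_mul b1 c3 (norm_nonneg _) (by linarith)).trans_eq (by ring)
  have q1 : 1 / 2 ≤ ‖ev0 x (S.dot F1.m (F2.rn S a).mb)‖ := by
    have e1 := norm_sub_norm_le 1 (ev0 x (S.dot F1.m F2.mb))
    have e2 := norm_sub_norm_le (ev0 x (S.dot F1.m F2.mb)) (-ev0 x (S.c a * S.dot F1.m F2.n))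
    rw [norm_sub_rev, norm_one] at e1
    rw [sub_neg_eq_add, norm_neg, ← map_add, map_mul, norm_mul, nc] at e2
    rw [Fr.rn, dot_add_right, dot_smul_right]
    nlinarith [mul_le_mul b2 c4 (norm_nonneg _) (by positivity)]
  obtain ⟨qi, h2⟩ := (ev.loc (S.dot F1.m (F2.rn S a).mb) fun e => by
    rw [e, norm_zero] at q1; linarith).exists_right_inv
  have b3 : ‖ev0 x (S.c (-(qi * S.dot F1.m F2.n)))‖ ≤ 2 * L ^ 2 * δ := by
    have := congrArg (‖ev0 x ·‖) h2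
    simp only [map_mul, norm_mul, map_one, norm_one] at this
    rw [nc, map_neg, norm_neg, map_mul, norm_mul]
    have e1 : ‖ev0 x qi‖ ≤ 2 := by nlinarith [norm_nonneg (ev0 x qi)]
    have e2 := mul_nonneg d0 (show 0 ≤ L ^ 2 - L by nlinarith)
    linarith [mul_le_mul e1 c4 (norm_nonneg _) zero_le_two]
  have dc := dc_of hS N2 N1 h1 ha h2
  have kd := mul_le_mul_of_nonneg_right k2 d0
  have r0 : 1 ≤ x.2.1 := by linarith [h.r1, h.M0]
  subst hF1 hF2 hs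
  refine ⟨_, _, _, _, _, ⟨dc, h.g1.P1.symm.trans (h.eqs.P1 ▸ map_zero _),
    h.g1.P3.symm.trans (h.eqs.P3 ▸ map_zero _), ⟨P354YK.out_is h.k2, ⟨rfl, rfl, rfl, rfl⟩,
    ⟨rfl, rfl, rfl, rfl⟩⟩, ev, fun f => fv_cj f x, ?_, by nlinarith, le_trans ?_ k2,
    b1.trans (by nlinarith), b2.trans (by linarith), b3.trans (by linarith), fun w k hw hk =>
    k1 w hw k hk c E x e h.sh.co2 h.eqs h.o2 h.an r0 (e ▸ h.fa.2), ?_⟩, b2.trans kd, b3.trans kd⟩
  · exact h.unit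
  · show ‖ev0 x (-(ge {x} E.g).dot _ _)‖ ≤ _
    nlinarith
  · subst e
    exact h.p2 (d.trans (min_le_left _ _)) k3

section words
variable {O : Set E6} (G : GHP (Sm (on O)))

theorem q2_lo (w : List Lt) (n : ℕ) (f : Sm (on O)) :
    q2 (f4 G) x n (wG G (w.map inl) f) ≤ q2 (f4 G) x (n + w.length) f := by
  induction w generalizing n with
  | nil => exact le_rfl
  | cons a w ih =>
    obtain ⟨i, hi⟩ : ∃ i, Dl G a = f4 G i := by
      obtain ⟨_ | _, _ | _⟩ := a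
      exacts [⟨0, rfl⟩, ⟨2, rfl⟩, ⟨3, rfl⟩, ⟨1, rfl⟩]
    exact (le_of_eq (congrArg (fun D : Der _ => q2 _ x n (D _)) hi)).trans ((q2_der _ x n i _).trans
      ((ih _).trans_eq (by rw [List.length_cons]; ring_nf)))

theorem q2_up {b : ℝ} : ∀ (n : ℕ) (f : Sm (on O)), (∀ w : List Lt, w.length ≤ n →
    ‖fv (wG G (w.map inl) f) x‖ ^ 2 ≤ b) → q2 (f4 G) x n f ≤ 5 ^ n * b
  | 0, f, h => (h [] le_rfl).trans_eq (by ring)
  | n + 1, f, h => by
    have e := fun a => q2_up (b := b) n (Dl G a f) fun w hw => by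
      have := h (w ++ [a]) (by simpa using hw)
      rwa [List.map_append, wG, Jd.wd, List.foldr_append] at this
    have e0 : q2 _ x n (f4 G 0 f) ≤ _ := e (false, false)
    have e1 : q2 _ x n (f4 G 1 f) ≤ _ := e (true, true)
    have e2 : q2 _ x n (f4 G 2 f) ≤ _ := e (false, true)
    have e3 : q2 _ x n (f4 G 3 f) ≤ _ := e (true, false)
    rw [q2_succ, pow_succ, Fin.sum_univ_four]
    linarith [q2_up n f fun w hw => h w (by omega)]

end words

theorem mono_if (m : ℕ) (δ y : ℝ) : Monotone fun i => if i ≤ m then min δ y else y :=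
  fun a b e => by
    dsimp only
    split_ifs with h1 h2 h2
    exacts [le_rfl, min_le_right _ _, absurd (e.trans h2) h1, le_rfl]

theorem reve : REVE := fun M0 ρ n => by
  obtain ⟨δ0, p0, K, h0⟩ := dec M0 ρ n
  obtain ⟨C, h1, c1⟩ := ((Dt.rev n K).and (eventually_gt_atTop 0)).exists
  refine ⟨min δ0 C⁻¹, by positivity, 2 * (5 ^ n * C ^ 2), by positivity,
    fun c E x e h s y hy => ?_⟩
  obtain ⟨a, b, al, be, q, o, -⟩ := h0 c E x _ (min_le_left _ _) e h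
  have := (h1 _ _ o (mono_if (n / 2) (min δ0 C⁻¹) y) (fun w k hw hk => by
      rw [h.df]
      split_ifs with h2
      exacts [le_min (s w k h2 hk) (hy w k hw hk), hy w k hw hk]) (by
      rw [if_pos le_rfl, ← le_div_iff₀' c1, one_div]
      exact (min_le_left _ _).trans (min_le_right _ _))).2.2.2
  have f : ∀ (i : Fin 6) k, lv i = 0 → (∀ G : GHP (Sm (on {x})), sb (val G) (P354FA.Gam G) i =
      Ps G k) → q2 (f4 E.G1) x n (Ps E.G1 k) ≤ 5 ^ n * (C * y) ^ 2 := fun i k e1 e2 =>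
    q2_up _ n _ fun w hw => pow_le_pow_left₀ (norm_nonneg _) (by
      have := this i (w.map inl) (by simpa [e1] using hw)
      refine (congrArg norm ((h.wg a b al be q w k).symm.trans (congrArg (fun f =>
        ev0 x (wG _ _ f)) (e2 _).symm))).trans_le (this.trans (mul_le_mul_of_nonneg_left ?_ c1.le))
      split_ifs
      exacts [min_le_right _ _, le_rfl]) 2
  exact (add_le_add (f 0 0 rfl fun _ => rfl) (f 1 4 rfl fun _ => rfl)).trans_eq (by ring)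

theorem tubeb : TUBEB := fun M0 ρ n => by
  rcases lt_or_ge n 2 with n2 | n2
  · exact ⟨1, one_pos, 1, zero_le_one, fun c E x _ _ _ d _ l y y0 _ w k hw hk =>
      (l w k (by omega) hk).trans (by linarith)⟩
  obtain ⟨δ0, p0, K, h0⟩ := dec M0 ρ n
  obtain ⟨C, h1, c1⟩ := ((Dt.tubeb n2 K).and (eventually_gt_atTop 0)).exists
  refine ⟨min δ0 (2 * C)⁻¹, by positivity, C, c1.le, fun c E x e h s d hd l y y0 hy w k hw hk => ?_⟩
  obtain ⟨a, b, al, be, q, o, -⟩ := h0 c E x _ (min_le_left _ _) e h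
  have d0 : 0 ≤ min δ0 (2 * C)⁻¹ := by positivity
  have f : ∀ (w : List Lt) k m t, k = 0 ∨ k = 4 → w.length ≤ m → 0 ≤ t → E.eta m x ≤ t ^ 2 →
      ‖fv (wG E.G1 (w.map inl) (Ps E.G1 k)) x‖ ≤ t := fun w k m t hk hw t0 e =>
    (pow_le_pow_iff_left₀ (norm_nonneg _) t0 two_ne_zero).1 (((q2_lo E.G1 w 0 _).trans
      (q2_mono _ x (m := m) (by omega) _)).trans (le_trans (by
        rcases hk with rfl | rfl
        exacts [le_add_of_nonneg_right (q2_nonneg _ _ _ _),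
          le_add_of_nonneg_left (q2_nonneg _ _ _ _)]) e))
  have := h1 _ _ d ⟨o, mono_if (n / 2) (min δ0 (2 * C)⁻¹) y, le_min d0 y0 |>.trans_eq
    (if_pos (Nat.zero_le _)).symm, fun w k hw hk => by
      rw [h.wg]
      split_ifs with h2
      exacts [le_min (f w k _ _ hk h2 d0 s) (f w k _ _ hk hw y0 hy), f w k _ _ hk hw y0 hy],
    fun w k hw hk => (h.df ..).trans_le (l w k hw hk)⟩ (by
      rw [if_pos le_rfl, ← le_div_iff₀' c1]
      have := min_le_right δ0 (2 * C)⁻¹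
      refine (add_le_add ((min_le_left _ _).trans this) (hd.trans this)).trans_eq ?_
      field_simp
      norm_num) w k hw hk
  rw [h.df] at this
  refine this.trans (mul_le_mul_of_nonneg_left (add_le_add ?_ le_rfl) c1.le)
  split_ifs
  exacts [min_le_right _ _, le_rfl]

end Vale.Agent.P354FX
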