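import Vale.Agent.P354Z.Est
import Vale.Agent.P354FA.Ev

/-!
The jets of P0 and P4 along the transverse frame against the jets in the outgoing frame.
-/

noncomputable section

namespace Vale.Agent.P354FX

open Vale.Agent.P354XG Vale.Agent.P354XD Vale.Agent.P354XR Vale.Agent.P354XI Vale.Agent.P354Z
open Vale.Agent.P354FA (Lt val)
open Vale.Agent.P354YK (out)

/-- The difference of the jets. -/
def dv (c : Cs) (E : Est) (x : E6) (w : List Lt) (k : ℕ) : ℝ :=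
  ‖fv (val E.G2 (false, w, k) - val (out (E.K2 c)) (false, w, k)) x‖

/-- A point of the far part of the near region where both frames are close to Kerr. -/
structure Pe (c : Cs) (E : Est) (x : E6) (ρ δ : ℝ) : Prop where
  ok : c.Ok
  sh : E.Shape c
  eqs : E.Eqs c
  M : |E.M - c.M| ≤ δ
  o1 : x ∈ E.O1
  an : An x
  fa : Est.Fa c x
  r : x.2.1 ≤ ρ
  d1 : ∀ i, ‖fv (E.d1 c (.inl i)) x‖ ≤ δ
  d2 : ∀ i, ‖fv (E.d2 c (.inl i)) x‖ ≤ δ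

/-- From the outgoing frame to the transverse frame. -/
def REVE : Prop := ∀ (M0 ρ : ℝ) (n : ℕ), ∃ δ > 0, ∃ C ≥ 0, ∀ c E x, c.M = M0 → Pe c E x ρ δ →
  (∀ w k, List.length w ≤ n / 2 → k ≤ 4 → dv c E x w k ≤ δ) →
  ∀ y, (∀ w k, List.length w ≤ n → k ≤ 4 → dv c E x w k ≤ y) → E.eta n x ≤ C * y ^ 2

/-- From the transverse frame to the outgoing frame. -/
def TUBEB : Prop := ∀ (M0 ρ : ℝ) (n : ℕ), ∃ δ > 0, ∃ C ≥ 0, ∀ c E x, c.M = M0 → Pe c E x ρ δ →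
  E.eta (n / 2) x ≤ δ ^ 2 → ∀ d ≤ δ, (∀ w k, List.length w ≤ 2 → k ≤ 4 → dv c E x w k ≤ d) →
  ∀ y ≥ 0, E.eta n x ≤ y ^ 2 → ∀ w k, List.length w ≤ n → k ≤ 4 → dv c E x w k ≤ C * (y + d)

/-- The jets of order at most two. -/
def LOW2 : Prop := ∀ M0 ρ : ℝ, ∃ δ > 0, ∃ C ≥ 0, ∀ c E x, c.M = M0 → c.Ok → E.Shape c → E.Eqs c →
  x ∈ E.O2 → An x → Est.Fa c x → x.2.1 ≤ ρ → ∀ d, 0 ≤ d → d ≤ δ →
  (∀ i, q2 (lt (hp _) (E.p2 c)) x 2 (E.d2 c i) ≤ d ^ 2) →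
  ∀ w k, List.length w ≤ 2 → k ≤ 4 → dv c E x w k ≤ C * d

end Vale.Agent.P354FX
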