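import Vale.Agent.P354FX.Ins
import Vale.Agent.P354FW.Pt
import Vale.Agent.P354FY.Pe
import Vale.Agent.P354SI.Rows

/-!
The extension of the estimate to all radii.
-/

open Set Filter

noncomputable section

namespace Vale.Agent.P354FX

open Vale.Agent.P354XG Vale.Agent.P354XD Vale.Agent.P354XR Vale.Agent.P354XI Vale.Agent.P354Z
open Vale.Agent.P354SI Vale.Agent.P354YF Vale.Agent.P354CO Vale.Agent.P354XT
open Vale.Agent.P354YH (sm sm_add sm_mul sm_mono sm_nn)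
open Vale.Agent.P354XZ (Cut)
open Vale.Agent.P354FQ (CUT FARS fm fm_ok pt jx qb uq vw)
open Vale.Agent.P354FY (pe_of one one_ok tb_md dv_le)

/-- The short words are small. -/
theorem short {c : Cs} (o : c.Ok) {E : Est} (sh : E.Shape c) (q : E.Eqs c) {n m L : ℕ} {s e : ℝ}
    (hn : n ≤ L) (tb : TabE c E m L s e) {x : E6} (hx : x ∈ E.O2) (a : An x) (f : Est.Fa c x)
    (t0 : 0 ≤ x.1) (l : rv E.tau x < s) (w : List P354FA.Lt) (k : ℕ) (hw : w.length ≤ n)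
    (hk : k ≤ 4) : dv c E x w k ≤ 2 ^ (n + 2) * (3 * (e * (c.R1 + 3) ^ 3)) := by
  have p : 0 < c.R1 + 3 := by linarith [o.R1, (abs_nonneg _).trans_lt o.aM]
  have h := one_ok o sh q
  let y := h.pk () x ⟨hx, a, f⟩
  have u : 0 ≤ h.ch.uu y := (add_nonneg t0 (div_nonneg (by positivity)
    (p.le.trans f.1))).trans_eq (h.uu_eq y).symm
  have t := tb _ h y rfl rfl le_rfl l
  exact (dv_le h hw ⟨k, by omega⟩ y).1.trans (mul_le_mul_of_nonneg_left (tb_md h.is u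
    (nonneg_of_mul_nonneg_left ((jet0 ..).trans t.a) (at_pos h.is ..))
    (t.V 0 w ⟨k, by omega⟩ (Nat.zero_le _) (by rw [zero_add]; exact hw.trans hn))) (by positivity))

variable {P : P354SI.Pr}

theorem dv_qb {K : Cut (P354FQ.ch P)} (k : K.Is) {n : ℕ} {ρ : ℝ} (x : (P354FQ.ch P).Pt)
    (u0 : 0 ≤ (P354FQ.ch P).uu x) (r : (pt x).2.1 ≤ ρ) (w : List P354FA.Lt) (i : ℕ)
    (hw : w.length ≤ n) (hi : i ≤ 4) : uq x * dv (jx x).σ.c (jx x).σ.E (pt x) w i ^ 2 ≤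
      (2 ^ (n + 2)) ^ 2 * (2048 * ρ ^ 2) * qb K 0 n x := by
  have h := (fm_ok P).is
  have r1 := P354YK.one_le_rr h x
  rw [← (fm_ok P).rr_eq] at r
  have a := P354FW.D_ge h k u0 (r1.trans r) (by
    have : (P354FQ.ch P).rr x / (8 * ρ) ≤ 1 := (div_le_one (by linarith)).2 (by linarith)
    have := pow_le_one₀ (n := 2) (div_nonneg (by linarith) (by linarith)) this
    linarith [P354FW.p_one h (x := x) k]) ⟨i, by omega⟩
  have b := P354FS.one_le_Qb (F := (fm P).nf) (F0 := (fm P).nf0) (Vw := vw P) h k 0 0 hw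
    ⟨i, by omega⟩ x
  rw [vl_fn_mul h (P354YS.ps_Dw h (P354YL.ps_p k) 0 _).sm, zero_add, sl_one, vl_nsq h] at b
  have u : 0 < uq x := at_pos h ..
  have c := pow_le_pow_left₀ (norm_nonneg _) (dv_le (fm_ok P) hw ⟨i, by omega⟩ x).1 2
  replace a := (le_mul_of_one_le_right u.le (Real.one_le_rpow r1 (by split_ifs <;> norm_num))).trans a
  refine (mul_le_mul a c (sq_nonneg _) (u.le.trans a)).trans (le_trans (le_of_eq ?_)
    (mul_le_mul_of_nonneg_left b (by positivity)))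
  ring

/-- The row FX. -/
theorem fx_of (h1 : ROW fun P _ => CUT P) (h2 : ROW FARS) (Γ : Gam) :
    ROW fun P m => (sy Γ P m).FX := (h1.and h2).mono fun P m b ⟨⟨K, T, ck⟩, h⟩ n _ => by
  obtain ⟨Rm, h⟩ := h K T ck 0 n n (Nat.zero_le _) (zero_add n).le
  have r0 : 0 < P.c.r0 := ((abs_nonneg _).trans_lt b.c.aM).trans b.c.r0
  obtain ⟨R0, a1, a2⟩ : ∃ R0, Rm ≤ R0 ∧ P.c.r0 ≤ R0 := ⟨_, le_max_left _ _, le_max_right _ _⟩
  obtain ⟨R1, B, B0, h⟩ := h R0 a1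
  obtain ⟨C, C0, h⟩ := h R0 le_rfl
  obtain ⟨R', a3, a4⟩ : ∃ R', R1 ≤ R' ∧ 4 * R0 + 1 ≤ R' := ⟨_, le_max_left _ _, le_max_right _ _⟩
  refine ⟨R', fun R => ?_⟩
  obtain ⟨ρ, a5, a6⟩ : ∃ ρ, R + 1 ≤ ρ ∧ P.c.R1 + 3 ≤ ρ := ⟨_, le_max_left _ _, le_max_right _ _⟩
  obtain ⟨δ, d0, C1, c1, hr⟩ := reve P.c.M ρ n
  have p3 : 0 < P.c.R1 + 3 := by linarith [b.c.R1, (abs_nonneg _).trans_lt b.c.aM]
  obtain ⟨Λ, hΛ⟩ : ∃ Λ, Λ = (C1 + 1) * ((2 ^ (n + 2)) ^ 2 * (2048 * ρ ^ 2)) := ⟨_, rfl⟩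
  have l0 : 0 < Λ := by have := p3.trans_le a6; rw [hΛ]; positivity
  have : ∀ c : Cs, ∃ e > 0, c.Ok → c.R1 + 3 ≤ ρ → ∀ E L ε, Bo c E L ε → c.L0 ≤ L → ε ≤ e →
      ∀ x ∈ E.O1, An x → Est.Fa c x → x.2.1 ≤ ρ → Pe c E x ρ δ := fun c => by
    by_cases o : c.Ok ∧ c.R1 + 3 ≤ ρ
    · exact (pe_of o.1 o.2 d0).imp fun e h => ⟨h.1, fun _ _ => h.2⟩
    · exact ⟨1, one_pos, fun u v => absurd ⟨u, v⟩ o⟩
  choose e e0 he using this
  refine ⟨1 + Λ * (B + C), by positivity, ?_⟩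
  filter_upwards [h, ev_sys (ev_c n e0), ev_sys (ev_LK n), ev_sys (ev_R n (R' + 2)),
    ev_sys (ev_e n (show 0 < δ / (2 ^ (n / 2 + 2) * (3 * (P.c.R1 + 3) ^ 3)) by positivity)),
    mem_inf_of_right (mem_principal_self _)] with σ h s1 s2 s3 s4 s5 k hk
  have wc := St.wc_out (σ := σ) (show P.c.r0 < 4 * R0 by linarith) (lt_add_one _) R
  have sh := σ.is.shape
  have t2 : 2 ≤ P.c.t1 := b.c.t1
  have c0 : 1 ≤ P.c.c0 := b.c.c0
  replace h := h k hk _ (fun x => Λ⁻¹ * (dn (P.c.t1 + σ.K + 2) (P.c.t1 + σ.K + 2 + 1) x.1 *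
      σ.E.eta n x)) wc (fun r => ⟨mul_nonneg (up_nonneg ..) (St.out_nn ..),
      mul_le_one₀ (P354XT.up_le ..) (St.out_nn ..) (dn_le ..)⟩) (fun r hr => le_of_not_gt fun d =>
      hr (mul_eq_zero_of_left (up_zero (lt_add_one _) d.le) _)) (continuousOn_const.mul
      (((dn_sm ..).continuous.comp continuous_fst).continuousOn.mul
        ((σ.cn_eta n).mono fun _ h => h.1))) fun x e1 e2 _ cx o1 t1 => by
    subst e1
    obtain ⟨o2, an, w1, w2⟩ := (fm_ok P).pt_mem x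
    have r : (pt x).2.1 ≤ ρ := le_trans (le_of_not_gt fun d =>
      cx (mul_eq_zero_of_right _ (St.out_zero d.le))) a5
    have fa : Est.Fa (jx x).σ.c (pt x) := ⟨le_trans (by
      show P.c.R1 + 3 ≤ (jx x).R0
      linarith [(jx x).h1, b.c.R1, (abs_nonneg _).trans_lt b.c.aM]) w1, w2⟩
    have u0 : 0 ≤ (P354FQ.ch P).uu x := (add_nonneg (by linarith) (div_nonneg (by positivity)
      (p3.le.trans fa.1))).trans_eq ((fm_ok P).uu_eq x).symm
    have u : 0 < uq x := at_pos (fm_ok P).is ..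
    have q := dv_qb ck.cut (n := n) x u0 r
    have q0 := (mul_nonneg u.le (sq_nonneg _)).trans (q [] 0 n.zero_le (by omega))
    have q1 : 0 ≤ qb K 0 n x := nonneg_of_mul_nonneg_right q0 (by have := p3.trans_le a6; positivity)
    rcases le_total (P.c.t1 + (jx x).σ.K + 2 + 1) (pt x).1 with t | t
    · rwa [dn_zero (lt_add_one _) t, zero_mul, mul_zero, mul_zero]
    have bx := (jx x).σ.box (sh.co1.pos _ o1).2 (by linarith) (by linarith [(jx x).σ.kT])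
      (by have : R0 ≤ (pt x).2.1 := e2 ▸ w1; linarith) (le_of_not_gt fun d => cx
        (mul_eq_zero_of_right _ (dn_zero (lt_add_one _) (by linarith [min_le_right R ((jx x).σ.R2 - 2)]))))
    have := hr (jx x).σ.c _ _ rfl (he _ (jx x).σ.ok a6 _ _ _ ⟨(jx x).σ.is, b.c.s0 ▸ (jx x).σ.dec,
      (jx x).σ.e1, (jx x).σ.e0⟩ (by show P.c.L0 ≤ _; omega) s1.1 _ o1 an fa r)
      (fun w i hw hi => (short (jx x).σ.ok sh (jx x).σ.is.eqs (by omega) s5.2.2 o2 an fa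
        (by linarith) ((sh.up _ o1 fa).2 ▸ bx.2) w i hw hi).trans (by
          have := (le_div_iff₀ (by positivity)).1 s4.2
          exact le_of_eq_of_le (by show _ * (3 * (_ * (P.c.R1 + 3) ^ 3)) = _; ring) this))
      _ fun w i hw hi => Real.le_sqrt_of_sq_le ((le_div_iff₀' u).2 (q w i hw hi))
    rw [Real.sq_sqrt (div_nonneg q0 u.le), ← mul_div_assoc, le_div_iff₀' u] at this
    rw [mul_left_comm, inv_mul_le_iff₀ l0, hΛ]
    refine (mul_le_mul_of_nonneg_left (mul_le_of_le_one_left ((jx x).σ.eta_nn ..) (dn_le ..))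
      u.le).trans (this.trans ?_)
    nlinarith
  have e1 : ∀ j, σ.sj j (fun r => up (4 * R0) (4 * R0 + 1) r * σ.out R r) (fun x => Λ⁻¹ *
      (dn (P.c.t1 + σ.K + 2) (P.c.t1 + σ.K + 2 + 1) x.1 * σ.E.eta n x)) =
      Λ⁻¹ * σ.sj j (fun r => up (4 * R0) (4 * R0 + 1) r * σ.out R r) (σ.E.eta n) := fun j => by
    unfold St.sj
    split_ifs with hj
    · rw [P354SI.sl, P354SI.sl, ← MeasureTheory.integral_const_mul]
      refine congrArg _ (funext fun x => ?_)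
      by_cases d : x.1 - (P.c.t1 + j) ∈ Icc (0 : ℝ) 2
      · rw [dn_one (lt_add_one _) (by linarith [d.2, (Nat.cast_le (α := ℝ)).2 hj])]; ring
      · rw [bp_out d]; ring
    · rw [mul_zero]
  simp only [e1, sm_mul, inv_mul_le_iff₀ l0, zero_add] at h
  have F := form (G := GT P m) (Γ := fun _ _ _ _ => 0) b.ok (GT_anti P m) fun _ _ _ _ => le_rfl
  have e2 := sm_mono P.Q k fun j => St.sj_le2 (j := j) (St.wc_x b.ok σ R) (St.wc_x b.ok σ R') wc
    (σ.cn_eta n) (σ.cn_eta n) (σ.cn_eta n) fun x => by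
      rw [← add_mul]
      refine mul_le_mul_of_nonneg_right ?_ (σ.eta_nn ..)
      have b1 := up_nonneg (P.rb - 1) P.rb x.2.1
      have b2 := St.out_nn (σ := σ) R x.2.1
      rcases le_total x.2.1 R' with d | d
      · rw [St.out_one d (by linarith)]
        exact le_add_of_le_of_nonneg (mul_le_mul_of_nonneg_left (dn_le ..) b1)
          (mul_nonneg (up_nonneg ..) b2)
      · rw [up_one (lt_add_one _) (a4.trans d)]
        exact le_add_of_nonneg_of_le (mul_nonneg b1 (St.out_nn ..))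
          (mul_le_mul_of_nonneg_right (P354XT.up_le ..) b2)
  rw [sm_add] at e2
  have e3 : sm P.Q k (fx P n R' σ) ≤ sm P.Q k fun j =>
      (sy Γ P m).B n R' σ j + fy P P.g R' σ j := sm_mono _ _ fun j =>
    le_add_of_le_of_nonneg (le_add_of_nonneg_left (fy_nn ..)) (fy_nn ..)
  have e4 : sm P.Q k (fun j => fx P n R1 σ j + fy P P.g R1 σ j) ≤ sm P.Q k fun j =>
      (sy Γ P m).B n R' σ j + fy P P.g R' σ j := sm_mono _ _ fun j =>
    add_le_add (le_add_of_nonneg_of_le (fy_nn ..) (F.xm le_rfl a3 σ j)) (F.ym le_rfl a3 σ j)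
  have e5 := (sm_nn P.Q k (fx_nn n R' σ)).trans e3
  have D0 : 0 ≤ σ.D := F.D0 σ
  refine (e2.trans (add_le_add e3 (h.trans (mul_le_mul_of_nonneg_left (add_le_add
    (mul_le_mul_of_nonneg_left e4 B0) le_rfl) l0.le)))).trans ?_
  show _ ≤ _ * (σ.D + sm P.Q k fun j => (sy Γ P m).B n R' σ j + fy P P.g R' σ j)
  nlinarith [mul_nonneg l0.le (mul_nonneg B0 D0), mul_nonneg l0.le (mul_nonneg C0 e5)]

end Vale.Agent.P354FX
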