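import Vale.Agent.P354FX.Jd

/-!
Constant boosts of jet data, the jet data of a transverse frame, the universal bounds.
-/

set_option linter.unusedSimpArgs false

noncomputable section

namespace Vale.Agent.P354FX

open MvPolynomial Filter Sum
open Vale.Agent.P354XG
open Vale.Agent.P354FA (Lt Gn Var val wc wt lc lt Gam Dl)

/-- The parameters of a boost and a spin. -/
structure Bp where
  al : ℂ
  be : ℂ
  q : ℂ
  q' : ℂ
  h1 : al * be = 1
  h2 : q * q' = 1

namespace Bp
variable (p : Bp)

def mu : Gn → ℂ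
  | .F => p.be * p.q'
  | .E => p.al * p.q
  | .Fb => p.be * p.q
  | .Eb => p.al * p.q'
  | _ => 1
def nu : Gn → ℂ
  | .F => p.al * p.q
  | .E => p.be * p.q'
  | .Fb => p.al * p.q'
  | .Eb => p.be * p.q
  | _ => 1
def l : Lt → ℂ := bl p.al p.be p.q p.q'
def m (c : Bool) : ℕ → ℂ := bm (p.al * cond c p.q' p.q) (p.be * cond c p.q p.q')
def la (v : Var) : ℂ := p.m v.1 v.2.2 * (v.2.1.map p.l).prod
def b : Lt ⊕ Bool → ℂ := Sum.elim p.l fun _ => 1
def s : Fin 6 → ℂ := sb p.la fun x g => p.l x * p.nu g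

theorem nu_mu (g : Gn) : p.nu g * p.mu g = 1 := by
  have := p.h1
  have := p.h2
  cases g <;> simp only [mu, nu] <;> grind

theorem l_lt {g : Gn} {x : Lt} (h : lc g x ≠ 0) : p.l (lt g x) = p.mu g * p.l x := by
  have := p.h1
  have := p.h2
  obtain ⟨a, b⟩ := x
  cases g <;> cases a <;> cases b <;> simp [lc] at h <;> simp only [mu, l, bl, lt] <;> grind

theorem m_wt {g : Gn} {c : Bool} {k : ℕ} (hk : k ≤ 4) (h : wc g c k ≠ 0) :
    p.m c (wt g k) = p.mu g * p.m c k := by
  have := p.h1
  have := p.h2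
  cases g <;> cases c <;> interval_cases k <;> simp [wc] at h <;>
    simp only [mu, m, bm, wt, cond_true, cond_false, Nat.reduceAdd, Nat.reduceSub] <;> grind

end Bp

variable {A : Type*} [CommRing A] [Algebra ℂ A] (p : Bp)

theorem dw_bo (g : Gn) (w : List Lt) (z : ℂ) (f : List Lt → A) :
    dw g w (fun w' => (z * (w'.map p.l).prod) • f w') =
      (p.mu g * (z * (w.map p.l).prod)) • dw g w f := by
  induction w generalizing f z with
  | nil => simp [dw]
  | cons x w ih =>
    simp only [dw, List.map_cons, List.prod_cons, ← mul_assoc z, ih, smul_add, mul_smul_comm]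
    by_cases e : lc g x = 0
    · simp [e]
    · rw [p.l_lt e]; congr 2; ring

theorem Ac_bo (V : Var → A) (g : Gn) (c : Bool) (w : List Lt) {k : ℕ} (hk : k ≤ 4) :
    Ac (fun v => p.la v • V v) g c w k = (p.mu g * p.la (c, w, k)) • Ac V g c w k := by
  simp only [Ac, Bp.la, dw_bo, smul_add, mul_smul_comm]
  by_cases e : wc g c k = 0
  · simp [e]
  · rw [p.m_wt hk e, mul_assoc]

namespace Jd

def bo (J : Jd A) : Jd A :=
  ⟨fun b => p.b b • J.D b, fun v => p.la v • J.V v, fun x g => (p.l x * p.nu g) • J.G x g, J.I⟩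

variable {J : Jd A}

theorem Is.bo (h : J.Is) : (J.bo p).Is where
  hor x c w k hk := by
    have e : ∀ g, p.l x * p.nu g * (p.mu g * p.la (c, w, k)) = p.l x * p.la (c, w, k) := fun g => by
      linear_combination p.l x * p.la (c, w, k) * p.nu_mu g
    have e2 : p.la (c, x :: w, k) = p.l x * p.la (c, w, k) := by simp [Bp.la]; ring
    simp only [Jd.bo, cn4, Ac_bo p _ _ _ _ hk, smul_mul_smul_comm, e, e2, Derivation.smul_apply,
      Derivation.map_smul, h.hor x c w k hk, Bp.b, Sum.elim_inl]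
    module
  ver b c w k hk := by
    simp only [Jd.bo, Ac_bo p _ _ _ _ hk, Derivation.smul_apply, Derivation.map_smul,
      h.ver b c w k hk, Bp.b, Sum.elim_inr, one_smul]
    cases b <;> simp [Bp.mu]
  p1 c := by simp only [Jd.bo, h.p1, smul_zero]
  p3 c := by simp only [Jd.bo, h.p3, smul_zero]
  inv c := by
    have e : p.la (c, [], 0) * p.la (c, [], 4) = 1 := by
      have := p.h1
      have := p.h2
      cases c <;> simp [Bp.la, Bp.m, bm] <;> grind
    have e2 : p.la (c, [], 2) = 1 := by simp [Bp.la, Bp.m, bm]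
    simpa only [Jd.bo, De, smul_mul_smul_comm, e, e2, one_smul] using h.inv c

theorem wd_bo (u : List (Lt ⊕ Bool)) (z : ℂ) (f : A) :
    (J.bo p).wd u (z • f) = ((u.map p.b).prod * z) • J.wd u f := by
  induction u with
  | nil => simp [wd]
  | cons b u ih =>
    refine (congrArg ((J.bo p).D b) ih).trans ?_
    simp only [Jd.bo, Derivation.smul_apply, Derivation.map_smul, smul_smul, List.map_cons,
      List.prod_cons]
    exact congrArg (· • _) (by ring)

theorem sb_bo (i : Fin 6) : sb (J.bo p).V (J.bo p).G i = p.s i • sb J.V J.G i := by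
  fin_cases i <;> rfl

/-- The jet data of a GHP structure; I is the inverse of the determinant. -/
def of (G : GHP A) (I : A) : Jd A :=
  ⟨Sum.elim (Dl G) fun b => cond b G.Hb G.H, val G, Gam G, fun c => cond c (G.c I) I⟩

theorem of_is {G : GHP A} {I : A} (h : G.Is) (h1 : G.P1 = 0) (h3 : G.P3 = 0)
    (hI : I * (9 * (G.P2 * G.P2) - G.P0 * G.P4) = 1) : (of G I).Is where
  hor x c w k _ := by
    simp only [of, Sum.elim_inl, val_rec, cn4, Ac, List.map, List.sum_cons, List.sum_nil]
    ring
  ver b c w k _ := by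
    have a := P354FA.H_ev h (X (c, w, k))
    have b' := P354FA.Hb_ev h (X (c, w, k))
    simp only [P354FA.act_X, P354FA.ev, aeval_gx, aeval_X] at a b'
    cases b
    exacts [a, b']
  p1 c := by cases c <;> simp [of, P354FA.val_nil, P354FA.val_nil', P354FA.Ps, h1]
  p3 c := by cases c <;> simp [of, P354FA.val_nil, P354FA.val_nil', P354FA.Ps, h3]
  inv c := by
    have := congrArg G.c hI
    cases c
    · exact hI
    · simpa [of, De, P354FA.val_nil', P354FA.Ps, map_ofNat] using this

end Jd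

/-- Jet data with the same values at two points have the same derivatives there. -/
theorem wd_eq {A' : Type*} [CommRing A'] [Algebra ℂ A'] {J : Jd A} {J' : Jd A'} (h : J.Is)
    (h' : J'.Is) {φ : A →ₐ[ℂ] ℂ} {ψ : A' →ₐ[ℂ] ℂ} (e : ∀ s, LV.ok s → φ (J.u s) = ψ (J'.u s))
    (u : List (Lt ⊕ Bool)) (i : Fin 6) :
    φ (J.wd u (sb J.V J.G i)) = ψ (J'.wd u (sb J'.V J'.G i)) := by
  rw [← h.sb, ← h'.sb, ← h.wF u (cl_sb i), ← h'.wF u (cl_sb i), map_aeval', map_aeval']
  exact (cl_wF u (cl_sb i)).congr e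

/-- The words on the small quantities are bounded by the distance to a reference on which the
small quantities vanish; the principal parts. -/
theorem rev0 (n : ℕ) (K : ℝ) : ∀ᶠ C in atTop, ∀ (A A' : Type) [CommRing A] [Algebra ℂ A]
    [CommRing A'] [Algebra ℂ A'] (J : Jd A) (J' : Jd A') (φ : A →ₐ[ℂ] ℂ) (ψ : A' →ₐ[ℂ] ℂ) δ j N,
    N ≤ n → J.Is → J'.Is → (∀ i, sb J'.V J'.G i = 0) →
    Pr LV j N K δ (fun s => φ (J.u s)) (fun s => ψ (J'.u s)) →
    (∀ i u, lv i + u.length ≤ min j N →
      ‖φ (J.wd u (sb J.V J.G i))‖ ≤ C * δ (lv i + u.length)) ∧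
    ∀ k x w, k = 0 ∨ k = 4 → w.length ≤ j → w.length + 1 ≤ N →
      ‖φ (J.V (false, x :: w, k)) - ψ (J'.V (false, x :: w, k)) -
        φ (J.wd ((x :: w).map inl) (J.V (false, [], k)))‖ ≤ C * δ w.length := by
  filter_upwards [eventually_all.2 fun i => ev_len n fun u _ => (cl_wF u (cl_sb i)).lip K,
    eventually_all.2 fun x => ev_len n fun w _ => ((cl_top (.inl rfl) x w).lip K).and
      ((cl_top (.inr rfl) x w).lip K)] with C h1 h2 A A' _ _ _ _ J J' φ ψ δ j N hN h h' z p
  refine ⟨fun i u e => ?_, fun k x w hk e e' => ?_⟩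
  · have := (h1 i u (by omega) j N δ _ _ (by omega) p).2
    rwa [← map_aeval', ← map_aeval', h.wF u (cl_sb i), h'.wF u (cl_sb i), h.sb, h'.sb, z,
      Jd.wd_zero, map_zero, sub_zero, min_self] at this
  · have k4 : k ≤ 4 := by omega
    have c : Cl LV 0 0 (xv (false, [], k)) := cl_xv k4 le_rfl le_rfl
    have z' : J'.V (false, [], k) = 0 := by
      rcases hk with rfl | rfl
      exacts [z 0, z 1]
    have : Lp LV w.length (w.length + 1) (wF ((x :: w).map inl) (xv (false, [], k)) -
        xv (false, x :: w, k)) K C := by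
      rcases hk with rfl | rfl
      exacts [(h2 x w (by omega)).1, (h2 x w (by omega)).2]
    have := (this j N δ _ _ (by omega) p).2
    rw [← map_aeval', ← map_aeval', min_eq_left (Nat.le_succ _), ← norm_neg] at this
    simp only [map_sub, h.wF _ c, h'.wF _ c, h.xv, h'.xv, z', Jd.wd_zero, map_zero] at this
    exact (congrArg _ (by ring)).trans_le this

end Vale.Agent.P354FX
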