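import Mathlib

/-!
Polynomials filtered by levels, and their dependence on the values of the variables.
-/

namespace Vale.Agent.P354FX

open MvPolynomial Filter

/-- The levels of the variables, and the admissible ones. -/
structure Lv (σ : Type) where
  lev : σ → ℕ
  ok : σ → Prop

variable {σ : Type} (L : Lv σ)

/-- The monomials have factors of level at most j and total level at most n. -/
inductive Cl : ℕ → ℕ → MvPolynomial σ ℤ → Prop
  | c (j n : ℕ) (z : ℤ) : Cl j n (z : MvPolynomial σ ℤ)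
  | x {j n : ℕ} (s : σ) : L.ok s → L.lev s ≤ j → L.lev s ≤ n → Cl j n (X s)
  | add {j n : ℕ} {P Q : MvPolynomial σ ℤ} : Cl j n P → Cl j n Q → Cl j n (P + Q)
  | mul {j n m k : ℕ} {P Q : MvPolynomial σ ℤ} : Cl j n P → Cl j m Q → n + m ≤ k →
      Cl j k (P * Q)

variable {L} {j n j' n' : ℕ} {P Q : MvPolynomial σ ℤ}

theorem Cl.mono (h : Cl L j n P) (e : j ≤ j') (e' : n ≤ n') : Cl L j' n' P := by
  induction h generalizing n' with
  | c => exact .c _ _ _
  | x s a b c => exact .x s a (b.trans e) (c.trans e')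
  | add _ _ h1 h2 => exact (h1 e').add (h2 e')
  | mul _ _ k h1 h2 => exact (h1 le_rfl).mul (h2 le_rfl) (k.trans e')

theorem Cl.zero : Cl L j n 0 := by simpa using Cl.c (L := L) j n 0
theorem Cl.zmul (z : ℤ) (h : Cl L j n P) : Cl L j n (z * P) := (Cl.c j 0 z).mul h (by omega)
theorem Cl.neg (h : Cl L j n P) : Cl L j n (-P) := by simpa using h.zmul (-1)
theorem Cl.sub (h : Cl L j n P) (h' : Cl L j n Q) : Cl L j n (P - Q) := by
  simpa [sub_eq_add_neg] using h.add h'.neg
theorem Cl.num (k : ℕ) [k.AtLeastTwo] (h : Cl L j n P) : Cl L j n (ofNat(k) * P) := by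
  have := h.zmul k
  rwa [Int.cast_natCast] at this

theorem Cl.der {D : Derivation ℤ (MvPolynomial σ ℤ) (MvPolynomial σ ℤ)}
    (hD : ∀ s, L.ok s → Cl L (L.lev s + 1) (L.lev s + 1) (D (X s))) (h : Cl L j n P) :
    Cl L (j + 1) (n + 1) (D P) := by
  induction h with
  | c => rw [D.map_intCast]; exact .zero
  | x s a b c => exact (hD s a).mono (by omega) (by omega)
  | add _ _ h1 h2 => rw [map_add]; exact h1.add h2
  | mul p q k h1 h2 =>
    rw [Derivation.leibniz, smul_eq_mul, smul_eq_mul]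
    exact ((p.mono (by omega) le_rfl).mul h2 (by omega)).add
      ((q.mono (by omega) le_rfl).mul h1 (by omega))

/-- Two evaluations which intertwine the derivations on the variables. -/
theorem Cl.ev {A : Type*} [CommRing A] [Algebra ℂ A] {u : σ → A} {d : Derivation ℂ A A}
    {D : Derivation ℤ (MvPolynomial σ ℤ) (MvPolynomial σ ℤ)}
    (hD : ∀ s, L.ok s → aeval u (D (X s)) = d (u s)) (h : Cl L j n P) :
    aeval u (D P) = d (aeval u P) := by
  induction h with
  | c => simp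
  | x s a => rw [hD s a, aeval_X]
  | add _ _ h1 h2 => simp only [map_add, h1, h2]
  | mul _ _ _ h1 h2 => simp only [Derivation.leibniz, smul_eq_mul, map_add, map_mul, h1, h2]

theorem Cl.congr {A : Type*} [CommRing A] {u v : σ → A} (h : Cl L j n P)
    (e : ∀ s, L.ok s → u s = v s) : aeval u P = aeval v P := by
  induction h with
  | c => simp
  | x s a => rw [aeval_X, aeval_X, e s a]
  | add _ _ h1 h2 => simp only [map_add, h1, h2]
  | mul _ _ _ h1 h2 => simp only [map_mul, h1, h2]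

/-- The values u are close to the bounded values v. -/
structure Pr (L : Lv σ) (J N : ℕ) (K : ℝ) (δ : ℕ → ℝ) (u v : σ → ℂ) : Prop where
  mono : Monotone δ
  pos : 0 ≤ δ 0
  half : δ (N / 2) ≤ 1
  bd : ∀ s, L.ok s → L.lev s ≤ J → ‖v s‖ ≤ K ∧ ‖u s - v s‖ ≤ δ (L.lev s)

theorem Pr.nn {J N : ℕ} {K : ℝ} {δ : ℕ → ℝ} {u v : σ → ℂ} (p : Pr L J N K δ u v) (i : ℕ) :
    0 ≤ δ i :=
  p.pos.trans (p.mono i.zero_le)

def Lp (L : Lv σ) (j n : ℕ) (P : MvPolynomial σ ℤ) (K C : ℝ) : Prop :=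
  ∀ J N δ u v, min j n ≤ J ∧ n ≤ N → Pr L J N K δ u v →
    ‖aeval v P‖ ≤ C ∧ ‖aeval u P - aeval v P‖ ≤ C * δ (min j n)

theorem Lp.ev {K C : ℝ} (h : Lp L j n P K C) : ∀ᶠ C in atTop, Lp L j n P K C :=
  (eventually_ge_atTop C).mono fun _ e J N δ u v a p => ⟨(h J N δ u v a p).1.trans e,
    (h J N δ u v a p).2.trans (mul_le_mul_of_nonneg_right e (p.nn _))⟩

theorem mul_lp {a a' b b' : ℂ} {C x y z : ℝ} (h1 : ‖a'‖ ≤ C) (h2 : ‖a - a'‖ ≤ C * x)
    (h3 : ‖b'‖ ≤ C) (h4 : ‖b - b'‖ ≤ C * y) (x1 : x ≤ 1) (xz : x ≤ z) (yz : y ≤ z) (x0 : 0 ≤ x) :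
    ‖a * b - a' * b'‖ ≤ 3 * C ^ 2 * z := by
  have c : 0 ≤ C := (norm_nonneg _).trans h1
  have e : ‖a‖ ≤ 2 * C := by
    have := norm_add_le (a - a') a'
    rw [sub_add_cancel] at this
    nlinarith
  rw [show a * b - a' * b' = a * (b - b') + (a - a') * b' by ring]
  refine (norm_add_le _ _).trans ?_
  rw [norm_mul, norm_mul]
  have e1 := mul_le_mul e (h4.trans (mul_le_mul_of_nonneg_left yz c)) (norm_nonneg _) (by positivity)
  have e2 := mul_le_mul (h2.trans (mul_le_mul_of_nonneg_left xz c)) h3 (norm_nonneg _)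
    (mul_nonneg c (x0.trans xz))
  nlinarith

/-- The tame Lipschitz bound. -/
theorem Cl.lip (h : Cl L j n P) (K : ℝ) : ∀ᶠ C in atTop, Lp L j n P K C := by
  induction h with
  | c n z =>
    refine Lp.ev (C := ‖(z : ℂ)‖) fun J N δ u v _ p => ?_
    simp [mul_nonneg (abs_nonneg _) (p.nn _)]
  | x s a b c =>
    refine Lp.ev (C := max K 1) fun J N δ u v e p => ?_
    have := p.bd s a ((le_min b c).trans e.1)
    rw [aeval_X, aeval_X]
    exact ⟨this.1.trans (le_max_left _ _), this.2.trans ((p.mono (le_min b c)).trans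
      (le_mul_of_one_le_left (p.nn _) (le_max_right _ _)))⟩
  | add _ _ h1 h2 =>
    obtain ⟨C, a, b⟩ := (h1.and h2).exists
    refine Lp.ev (C := C + C) fun J N δ u v e p => ?_
    rw [map_add, map_add, add_sub_add_comm, add_mul]
    exact ⟨norm_add_le_of_le (a J N δ u v e p).1 (b J N δ u v e p).1,
      norm_add_le_of_le (a J N δ u v e p).2 (b J N δ u v e p).2⟩
  | @mul n m k _ _ _ _ hk h1 h2 =>
    obtain ⟨C, a, b⟩ := (h1.and h2).exists
    refine Lp.ev (C := 3 * C ^ 2) fun J N δ u v e p => ?_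
    obtain ⟨a1, a2⟩ := a J N δ u v (by omega) p
    obtain ⟨b1, b2⟩ := b J N δ u v (by omega) p
    have m1 := p.mono (show min j n ≤ min j k by omega)
    have m2 := p.mono (show min j m ≤ min j k by omega)
    rw [map_mul, map_mul, norm_mul]
    refine ⟨by nlinarith [mul_le_mul a1 b1 (norm_nonneg _) ((norm_nonneg _).trans a1)], ?_⟩
    rcases le_total n m with h | h
    · exact mul_lp a1 a2 b1 b2 ((p.mono (by omega)).trans p.half) m1 m2 (p.nn _)
    · rw [mul_comm, mul_comm (aeval v _)]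
      exact mul_lp b1 b2 a1 a2 ((p.mono (by omega)).trans p.half) m2 m1 (p.nn _)

theorem ev_len {κ : Type} [Finite κ] (m : ℕ) {p : List κ → ℝ → Prop}
    (h : ∀ w, w.length ≤ m → ∀ᶠ C in atTop, p w C) :
    ∀ᶠ C in atTop, ∀ w, w.length ≤ m → p w C :=
  (eventually_all_finite (List.finite_length_le κ m)).2 h

theorem ev_le (m : ℕ) {p : ℕ → ℝ → Prop} (h : ∀ i ≤ m, ∀ᶠ C in atTop, p i C) :
    ∀ᶠ C in atTop, ∀ i ≤ m, p i C :=
  (eventually_all_finite (Set.finite_Iic m)).2 h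

end Vale.Agent.P354FX
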