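import Vale.Agent.P354FX.Wy
import Vale.Agent.P354FA.Ev

/-!
The jets of the Weyl spinor are the components of a tensor: the laws of the changes of the frame.
-/

set_option linter.unusedSimpArgs false

namespace Vale.Agent.P354FX

open MvPolynomial (aeval X aeval_X)
open Vale.Agent.P354XG Vale.Agent.P354XG.Geo Vale.Agent.P354XD
open Vale.Agent.P354FA (Lt Gn Var Fm val gx nab lc lt wc wt Gam Dl Lin)

variable {A : Type*} [CommRing A]

/-- The action of a generator on the letters of a word. -/
def dw (g : Gn) : List Lt → (List Lt → A) → A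
  | [], _ => 0
  | x :: w, f => lc g x * f (lt g x :: w) + dw g w fun w' => f (x :: w')

theorem dw_congr (g : Gn) (w : List Lt) {f f' : List Lt → A}
    (h : ∀ w', w'.length = w.length → f w' = f' w') : dw g w f = dw g w f' := by
  induction w generalizing f f' with
  | nil => rfl
  | cons x w ih => rw [dw, dw, h (lt g x :: w) rfl, ih fun w' e => h (x :: w') (by simp [e])]

theorem aeval_nab (V : Var → A) (x : Lt) {n : ℕ} {P : Fm} (h : P ∈ Lin n) :
    aeval V (nab x P) = aeval (fun v : Var => V (v.1, x :: v.2.1, v.2.2)) P := by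
  induction h using Submodule.span_induction with
  | mem P hP =>
    obtain ⟨c, w, k, rfl, rfl⟩ := hP
    rw [P354FA.nab_X, aeval_X, aeval_X]
  | zero => simp only [map_zero]
  | add P Q _ _ hP hQ => simp only [map_add, hP, hQ]
  | smul z P _ hP => simp only [map_zsmul, hP]

theorem aeval_gx (V : Var → A) (g : Gn) (c : Bool) (w : List Lt) (k : ℕ) :
    aeval V (gx g c w k) = dw g w (fun w' => V (c, w', k)) + wc g c k * V (c, w, wt g k) := by
  induction w generalizing V with
  | nil => simp [gx, dw]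
  | cons x w ih =>
    rw [gx, map_add, aeval_nab V x (P354FA.gx_mem g c w k), ih]
    simp only [dw, zsmul_eq_mul, map_mul, map_intCast, aeval_X, add_assoc]

variable [Algebra ℂ A]

/-- The recursion of the jets. -/
theorem val_rec (G : GHP A) (c : Bool) (x : Lt) (w : List Lt) (k : ℕ) :
    val G (c, x :: w, k) = Dl G x (val G (c, w, k)) + ([Gn.F, .E, .Fb, .Eb].map fun g =>
      Gam G x g * (dw g w (fun w' => val G (c, w', k)) + wc g c k * val G (c, w, wt g k))).sum := by
  simp only [P354FA.val_cons, P354FA.cn, P354FA.ev, P354FA.act_X, aeval_gx, List.map, List.sum_cons,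
    List.sum_nil]
  ring

/-- The vectors of the letters. -/
def fr (F : Fr A) : Lt → Vec A
  | (false, false) => F.l
  | (true, true) => F.n
  | (false, true) => F.m
  | (true, false) => F.mb

variable {S : Geo A} {F : Fr A}

/-- The components of the tensor. -/
def cp (S : Geo A) (F : Fr A) (k : ℕ) (l : List (Vec A)) : A := pF (fun s => Jt S (l ++ s)) F k

theorem ml_cp (k : ℕ) : ML (cp S F k) := by
  have e := fun s => (ml_Jt S).app s
  match k with
  | 0 => exact (e _).neg
  | 1 => exact (e _).neg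
  | 2 => exact e _
  | 3 => exact (e _).neg
  | 4 => exact (e _).neg
  | k + 5 => exact .zero

theorem cp_cons (h : S.Is) (u : Op A) (l : List (Vec A)) {k : ℕ} (hk : k ≤ 4) :
    cp S F k (u.X :: l) = S.act u (cp S F k l) - dl (S.nab u) l (cp S F k) -
      pF (fun s => dl (S.nab u) s fun s => Jt S (l ++ s)) F k := by
  have e := act_Jt h u l
  have n : ∀ f : List (Vec A) → A, dl (S.nab u) l (fun l' => -f l') = -dl (S.nab u) l f :=
    fun f => by simpa using dl_lin (S.nab u) l (-1) 0 f f
  unfold cp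
  interval_cases k <;> simp only [pF, pk, e, n, D_neg] <;> ring

variable (h : S.Is) (N : F.WN S)
include h N

theorem table (x : Lt) {u : Op A} (hu : u = hat S F.l F.n F.m F.mb (fr F x)) :
    S.nab u F.l = -(Gam (F.ghp S) x .F • F.mb) - Gam (F.ghp S) x .Fb • F.m ∧
    S.nab u F.n = -(Gam (F.ghp S) x .E • F.m) - Gam (F.ghp S) x .Eb • F.mb ∧
    S.nab u F.m = -(Gam (F.ghp S) x .F • F.n) - Gam (F.ghp S) x .Eb • F.l ∧
    S.nab u F.mb = -(Gam (F.ghp S) x .E • F.l) - Gam (F.ghp S) x .Fb • F.n := by
  have M : Null S F.l F.n F.m F.mb := N.nl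
  have T := WNull.toHat h N
  have c1 : ∀ {u w : Op A} (_ : Cj S u w),
      S.c (-S.dot (S.nab u F.l) F.m) = -S.dot (S.nab w F.l) F.mb := fun e => by
    rw [map_neg, h.c_dot, h.c_nab e, M.c_l, M.c_m]
  have c2 : ∀ {u w : Op A} (_ : Cj S u w),
      S.c (-S.dot (S.nab u F.n) F.mb) = -S.dot (S.nab w F.n) F.m := fun e => by
    rw [map_neg, h.c_dot, h.c_nab e, M.c_n, M.c_mb h]
  have c3 := h.cj_symm T.cj2
  subst hu
  obtain ⟨a, b⟩ := x
  cases a <;> cases b
  · exact M.table h _ T.g0 rfl (c1 T.cj0) rfl (c2 T.cj0)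
  · exact M.table h _ T.g2 rfl (c1 c3) rfl (c2 c3)
  · exact M.table h _ T.g3 rfl (c1 T.cj2) rfl (c2 T.cj2)
  · exact M.table h _ T.g1 rfl (c1 T.cj1) rfl (c2 T.cj1)

theorem dl_dw (x : Lt) {u : Op A} (hu : u = hat S F.l F.n F.m F.mb (fr F x)) (w : List Lt)
    {f : List (Vec A) → A} (hf : ML f) : dl (S.nab u) (w.map (fr F)) f =
      -([Gn.F, .E, .Fb, .Eb].map fun g =>
        Gam (F.ghp S) x g * dw g w fun w' => f (w'.map (fr F))).sum := by
  obtain ⟨t1, t2, t3, t4⟩ := table h N x hu
  simp only [sub_eq_add_neg, ← neg_smul] at t1 t2 t3 t4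
  induction w generalizing f with
  | nil => simp [dl, dw]
  | cons y w ih =>
    have a := hf.add [] (w.map (fr F))
    have s := hf.smul [] (w.map (fr F))
    simp only [List.nil_append] at a s
    obtain ⟨b, c⟩ := y
    simp only [List.map_cons, dl, ih (hf.cons _), dw]
    cases b <;> cases c <;> simp only [fr, t1, t2, t3, t4, a, s] <;> simp [fr, lc, lt] <;> ring

/-- The jets are the components of the tensor. -/
theorem val_eq (w : List Lt) {k : ℕ} (hk : k ≤ 4) :
    val (F.ghp S) (false, w, k) = cp S F k (w.map (fr F)) := by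
  induction hn : w.length generalizing w k with
  | zero =>
    obtain rfl := List.length_eq_zero_iff.1 hn
    rw [P354FA.val_nil]
    interval_cases k <;> simp only [cp, pF, pk, List.map_nil, List.nil_append, Jt_four] <;> rfl
  | succ m ih =>
    obtain ⟨x, w, rfl⟩ := List.exists_cons_of_length_eq_add_one hn
    have hl : w.length = m := by simpa using hn
    obtain ⟨u, hu⟩ : ∃ u, u = hat S F.l F.n F.m F.mb (fr F x) := ⟨_, rfl⟩
    have e1 : fr F x = u.X := by rw [hu]; rfl
    have e2 : Dl (F.ghp S) x = S.act u := by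
      obtain ⟨a, b⟩ := x
      cases a <;> cases b <;> rw [hu] <;> rfl
    have e3 : ∀ g, dw g w (fun w' => val (F.ghp S) (false, w', k)) =
        dw g w fun w' => cp S F k (w'.map (fr F)) :=
      fun g => dw_congr g w fun w' e => ih w' hk (e.trans hl)
    have e4 : ((4 : ℤ) - k) * val (F.ghp S) (false, w, k + 1) =
        ((4 : ℤ) - k) * cp S F (k + 1) (w.map (fr F)) := by
      rcases hk.eq_or_lt with rfl | hk
      · norm_num
      · rw [ih w hk hl]
    have e5 := (wy_Jt h N (w.map (fr F))).shift (table h N x hu) hk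
    rw [List.map_cons, e1, val_rec, cp_cons h u _ hk, dl_dw h N x hu w (ml_cp k), e2, ih w hk hl,
      pF, e5]
    simp only [e3, List.map, List.sum_cons, List.sum_nil, wc, wt, ih w (show k - 1 ≤ 4 by omega) hl]
    simp only [cp, pF] at e4 ⊢
    push_cast at e4 ⊢
    linear_combination Gam (F.ghp S) x .F * e4

omit N in
/-- The general law. -/
theorem val_ch {F' : Fr A} (N : F.WN S) (N' : F'.WN S) (L : Lt → Lt → A)
    (hL : ∀ x, fr F' x = ∑ y, L x y • fr F y) {k : ℕ} (hk : k ≤ 4) (ρ : ℕ → A)
    (hρ : ∀ B, Wy B F.l F.n F.m F.mb → pF B F' k = ∑ j ∈ Finset.range 5, ρ j * pF B F j)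
    (w : List Lt) : val (F'.ghp S) (false, w, k) =
      ∑ j ∈ Finset.range 5, ρ j * ev (w.map L) fun w' => val (F.ghp S) (false, w', j) := by
  rw [val_eq h N' w hk, cp, hρ _ (wy_Jt h N _)]
  refine Finset.sum_congr rfl fun j hj => ?_
  have : j ≤ 4 := by simpa [Nat.lt_succ_iff] using hj
  simp only [val_eq h N _ this]
  rw [← (ml_cp j).frame (fr F) (fr F') L hL w, cp]

omit h N

/-- The matrices of the rotations; a' is the conjugate of a. -/
def Ln (a a' : A) (x y : Lt) : A :=
  (if x.1 = y.1 then 1 else if y.1 then a else 0) * if x.2 = y.2 then 1 else if y.2 then a' else 0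
def Ll (b b' : A) (x y : Lt) : A :=
  (if x.1 = y.1 then 1 else if x.1 then b else 0) * if x.2 = y.2 then 1 else if x.2 then b' else 0

/-- The factors of a boost. -/
def bl (al be q q' : A) : Lt → A
  | (false, false) => al
  | (true, true) => be
  | (false, true) => q
  | (true, false) => q'

theorem fr_rn (a : A) (x : Lt) : fr (F.rn S a) x = ∑ y, Ln a (S.c a) x y • fr F y := by
  obtain ⟨b, c⟩ := x
  cases b <;> cases c <;> simp [Fintype.sum_prod_type, fr, Fr.rn, Ln] <;> module

theorem fr_rl (b : A) (x : Lt) : fr (F.rl S b) x = ∑ y, Ll b (S.c b) x y • fr F y := by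
  obtain ⟨a, c⟩ := x
  cases a <;> cases c <;> simp [Fintype.sum_prod_type, fr, Fr.rl, Ll, add_comm, add_left_comm, add_assoc]

include h N

theorem val_rn {a : A} (N' : (F.rn S a).WN S) (w : List Lt) {k : ℕ} (hk : k ≤ 4) :
    val ((F.rn S a).ghp S) (false, w, k) = ∑ j ∈ Finset.range 5,
      rm a k j * ev (w.map (Ln a (S.c a))) fun w' => val (F.ghp S) (false, w', j) :=
  val_ch h N N' _ (fr_rn a) hk _ (fun _ e => e.rn a hk) w

theorem val_rl {b : A} (N' : (F.rl S b).WN S) (w : List Lt) {k : ℕ} (hk : k ≤ 4) :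
    val ((F.rl S b).ghp S) (false, w, k) = ∑ j ∈ Finset.range 5,
      rm b (4 - k) (4 - j) * ev (w.map (Ll b (S.c b))) fun w' => val (F.ghp S) (false, w', j) :=
  val_ch h N N' _ (fr_rl b) hk _ (fun _ e => e.rl b hk) w

theorem val_bo {al be q : A} (h1 : al * be = 1) (h3 : q * S.c q = 1)
    (N' : (F.bo S al be q).WN S) (w : List Lt) {k : ℕ} (hk : k ≤ 4) :
    val ((F.bo S al be q).ghp S) (false, w, k) = bm (al * q) (be * S.c q) k *
      ((w.map (bl al be q (S.c q))).prod * val (F.ghp S) (false, w, k)) := by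
  have e : ∀ (w : List Lt) (f : List (Vec A) → A), ML f →
      f (w.map (fr (F.bo S al be q))) = (w.map (bl al be q (S.c q))).prod * f (w.map (fr F)) := by
    intro w
    induction w with
    | nil => simp
    | cons x w ih =>
      intro f hf
      have s := hf.smul [] (w.map (fr F)) (bl al be q (S.c q) x) (fr F x)
      have e : fr (F.bo S al be q) x = bl al be q (S.c q) x • fr F x := by
        obtain ⟨a, c⟩ := x
        cases a <;> cases c <;> rfl
      simp only [List.nil_append] at s
      rw [List.map_cons, ih _ (hf.cons _), e, s, List.map_cons, List.prod_cons, List.map_cons]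
      ring
  rw [val_eq h N' w hk, val_eq h N w hk, ← e w _ (ml_cp k)]
  exact ((ml_Jt S).pre _).bo h1 h3 hk

end Vale.Agent.P354FX
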