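import Vale.Agent.P354FX.Num

/-!
Two null frames, a reference solution and two points: the tables of the jets.
-/

set_option linter.unusedSimpArgs false

noncomputable section

namespace Vale.Agent.P354FX

open MvPolynomial Filter Finset ComplexConjugate Sum
open Vale.Agent.P354XG Vale.Agent.P354XG.Geo Vale.Agent.P354XD
open Vale.Agent.P354FA (Lt Var val Gam cl mv Nl)

section
variable {A : Type*} [CommRing A] [Algebra ℂ A] {S : Geo A} {F2 F1 : Fr A} {a b al be q qi : A}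

/-- The passage from F2 to F1. -/
structure Dc (S : Geo A) (F2 F1 : Fr A) (a b al be q : A) : Prop where
  is : S.Is
  n2 : F2.WN S
  na : (F2.rn S a).WN S
  nb : ((F2.rn S a).rl S b).WN S
  n1 : F1.WN S
  eq : F1 = ((F2.rn S a).rl S b).bo S al be q
  h1 : al * be = 1
  h2 : S.c al = al
  h3 : q * S.c q = 1

theorem dc_of (h : S.Is) (N2 : F2.WN S) (N1 : F1.WN S) (h1 : -S.dot F1.l F2.n * be = 1)
    (ha : a = be * S.dot F1.l F2.m) (h2 : S.dot F1.m (F2.rn S a).mb * qi = 1) :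
    Dc S F2 F1 a (S.c (-(qi * S.dot F1.m F2.n))) (-S.dot F1.l F2.n) be
      (S.dot F1.m (F2.rn S a).mb) := by
  have d := Fr.decomp h N2.nl N1.nl h1 ha h2
  have iv : ∀ (D : Der A) {x y : A}, x * y = 1 → D x = 0 → D y = 0 := fun D x y e e' => by
    have := congrArg D e
    rw [D_mul, D_one, e'] at this
    linear_combination y * this - D y * e
  have u := h.vertH.dot
  have v := h.vertHb.dot
  have b1 := iv S.H h1 (by simp [u, N1.H_l, N2.H_n, dot_neg_right])
  have b2 := iv S.Hb h1 (by simp [v, N1.Hb_l h, N2.Hb_n h, dot_neg_right])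
  have na := N2.rn h (a := a) (by rw [ha, D_mul, b1, u, N1.H_l, N2.H_m]; ring)
    (by rw [ha, D_mul, b2, v, N1.Hb_l h, N2.Hb_m, dot_neg_right]; ring)
  have q1 := iv S.H h2 (by simp [u, N1.H_m, na.H_mb h, dot_neg_right])
  have q2 := iv S.Hb h2 (by simp [v, N1.Hb_m, na.Hb_mb h, dot_neg_left])
  refine ⟨h, N2, na, na.rl h ?_ ?_, N1, d.2, h1, by rw [map_neg, h.c_dot, N1.c_l, N2.c_n], d.1⟩
  · rw [← h.c_Hb, D_neg, D_mul, q2, v, N1.Hb_m, N2.Hb_n h, dot_neg_left, dot_neg_right]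
    simp only [map_neg, map_add, map_mul, map_zero]
    ring
  · rw [← h.c_H, D_neg, D_mul, q1, u, N1.H_m, N2.H_n, dot_neg_right]
    simp

theorem rn_neg (F : Fr A) (a : A) : (F.rn S a).rn S (-a) = F := by
  cases F
  simp only [Fr.rn, map_neg, Fr.mk.injEq]
  refine ⟨?_, trivial, ?_, ?_⟩ <;> module

theorem rl_neg (F : Fr A) (a : A) : (F.rl S a).rl S (-a) = F := by
  cases F
  simp only [Fr.rl, map_neg, Fr.mk.injEq]
  refine ⟨trivial, ?_, ?_, ?_⟩ <;> module

/-- Points. -/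
structure Ev (c : A →+* A) (φ : A →ₐ[ℂ] ℂ) : Prop where
  cj : ∀ f, φ (c f) = conj (φ f)
  loc : ∀ f, φ f ≠ 0 → IsUnit f

/-- The table of the jets. -/
def tb (φ : A →ₐ[ℂ] ℂ) (G : GHP A) (w : List Lt) (k : ℕ) : ℂ := φ (val G (false, w, k))

/-- The words of derivatives. -/
def wG (G : GHP A) : List (Lt ⊕ Bool) → A → A := (Jd.of G 0).wd

variable {φ : A →ₐ[ℂ] ℂ} {F : Fr A} {k : ℕ}

theorem map_ev (l : List (Lt → A)) (T : List Lt → A) :
    φ (ev l T) = ev (l.map fun Y x => φ (Y x)) fun w => φ (T w) := by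
  induction l generalizing T with
  | nil => rfl
  | cons Y l ih =>
    simp only [ev, ih, List.map_cons, ct, map_sum, map_mul]
    rfl

theorem map_rm (a : A) (k j : ℕ) : φ (rm a k j) = rm (φ a) k j := by
  simp only [rm, apply_ite φ, map_mul, map_natCast, map_pow, map_zero]

theorem tb_rn (h : S.Is) (N : F.WN S) (N' : (F.rn S a).WN S) (w : List Lt) (hk : k ≤ 4) :
    tb φ ((F.rn S a).ghp S) w k =
      Rt (rm (φ a)) (Ln (φ a) (φ (S.c a))) (tb φ (F.ghp S)) w k := by
  have e : ∀ x y, φ (Ln a (S.c a) x y) = Ln (φ a) (φ (S.c a)) x y := fun x y => by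
    simp only [Ln, map_mul, apply_ite φ, map_one, map_zero]
  simp only [tb, Rt, val_rn h N N' w hk, map_sum, map_mul, map_ev, map_rm, List.map_map,
    Function.comp_def, e]

theorem tb_rl (h : S.Is) (N : F.WN S) (N' : (F.rl S a).WN S) (w : List Lt) (hk : k ≤ 4) :
    tb φ ((F.rl S a).ghp S) w k = Rt (fun k j => rm (φ a) (4 - k) (4 - j))
      (Ll (φ a) (φ (S.c a))) (tb φ (F.ghp S)) w k := by
  have e : ∀ x y, φ (Ll a (S.c a) x y) = Ll (φ a) (φ (S.c a)) x y := fun x y => by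
    simp only [Ll, map_mul, apply_ite φ, map_one, map_zero]
  simp only [tb, Rt, val_rl h N N' w hk, map_sum, map_mul, map_ev, map_rm, List.map_map,
    Function.comp_def, e]

theorem val_true {G : GHP A} (h : G.Is) (e : ∀ f, φ (G.c f) = conj (φ f)) (w : List Lt) (k : ℕ) :
    φ (val G (true, w, k)) = conj (tb φ G (w.map cl) k) := by
  rw [tb, ← e, P354FA.c_val h, List.map_map]
  exact congrArg (fun w => φ (val G (true, w, k))) (List.map_id w).symm

theorem rl_val {G : GHP A} (h : G.Is) (φ : A →ₐ[ℂ] ℂ) : Rl fun v => φ (val G v) := by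
  refine ⟨fun x w k _ => ?_, fun y w k hk => ?_⟩
  · have := congrArg φ (Nl.ev (P354FA.mv_mem h x k w))
    simp only [P354FA.ev, map_sub, aeval_X, map_zero, map_aeval'] at this
    exact sub_eq_zero.1 this
  · have := congrArg φ (Nl.ev (P354FA.bia_mem h y hk w))
    simp only [P354FA.ev, map_sub, aeval_X, map_zero] at this
    exact sub_eq_zero.1 this

/-- The reference solutions. -/
structure Rf (G : GHP A) : Prop where
  is : G.Is
  P : G.P0 = 0 ∧ G.P1 = 0 ∧ G.P3 = 0 ∧ G.P4 = 0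
  z : G.ka = 0 ∧ G.si = 0 ∧ G.ka' = 0 ∧ G.si' = 0

theorem Rf.sb {G : GHP A} (h : Rf G) (i : Fin 6) : sb (val G) (Gam G) i = 0 := by
  fin_cases i
  exacts [h.P.1, h.P.2.2.2, h.z.1, h.z.2.1, h.z.2.2.1, h.z.2.2.2]

end

namespace Bp
variable (p : Bp)

def inv : Bp := ⟨p.be, p.al, p.q', p.q, by rw [mul_comm, p.h1], by rw [mul_comm, p.h2]⟩

theorem inv_mul (u : List (Lt ⊕ Bool)) (i : Fin 6) :
    (u.map p.inv.b).prod * p.inv.s i * ((u.map p.b).prod * p.s i) = 1 := by
  have := p.h1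
  have := p.h2
  induction u with
  | nil => fin_cases i <;> simp [s, sb, la, m, bm, l, bl, nu, inv] <;> grind
  | cons x u ih =>
    have e : p.inv.b x * p.b x = 1 := by
      rcases x with ⟨_ | _, _ | _⟩ | _ <;> simp [b, l, bl, inv] <;> grind
    simp only [List.map_cons, List.prod_cons]
    linear_combination ih + ((u.map p.inv.b).prod * p.inv.s i * ((u.map p.b).prod * p.s i)) * e

def Bd (K : ℝ) : Prop := ‖p.al‖ ≤ K ∧ ‖p.be‖ ≤ K ∧ ‖p.q‖ = 1 ∧ ‖p.q'‖ = 1

variable {p} {K : ℝ}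

theorem Bd.inv (h : p.Bd K) : p.inv.Bd K := ⟨h.2.1, h.1, h.2.2.2, h.2.2.1⟩

theorem Bd.le (h : p.Bd K) (k1 : 1 ≤ K) (u : List (Lt ⊕ Bool)) (i : Fin 6) :
    ‖(u.map p.b).prod * p.s i‖ ≤ K ^ (u.length + 2) := by
  obtain ⟨h1, h2, h3, h4⟩ := h
  have := norm_nonneg p.al
  have := norm_nonneg p.be
  induction u with
  | nil => fin_cases i <;> simp [s, sb, la, m, bm, l, bl, nu, h3, h4] <;> nlinarith
  | cons x u ih =>
    have e : ‖p.b x‖ ≤ K := by rcases x with ⟨_ | _, _ | _⟩ | _ <;> simp [b, l, bl, *]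
    rw [List.map_cons, List.prod_cons, mul_assoc, norm_mul, List.length_cons, add_right_comm,
      pow_succ']
    exact mul_le_mul e ih (norm_nonneg _) (by linarith)

theorem cj_la (h1 : conj p.al = p.al) (h2 : conj p.be = p.be) (h3 : conj p.q = p.q')
    (w : List Lt) (k : ℕ) : conj (p.la (false, w.map cl, k)) = p.la (true, w, k) := by
  have h4 : conj p.q' = p.q := by rw [← h3, Complex.conj_conj]
  have e : ∀ x, conj (p.l (cl x)) = p.l x := by rintro ⟨_ | _, _ | _⟩ <;> assumption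
  simp only [la, map_mul, map_list_prod, List.map_map, Function.comp_def, e]
  congr 1
  match k with
  | 0 | 1 | 2 | 3 | k + 4 => simp [m, bm, *]

end Bp

end Vale.Agent.P354FX
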