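import Vale.Agent.P354FA.Hat

/-!
The jets of the far family along the letters of the chart, on bounded radii.
-/

noncomputable section

namespace Vale.Agent.P354FX

open Vale.Agent.P354FA (Vw)
open Vale.Agent.P354XZ

/-- The rotations are combinations of the angular basis fields. -/
def OmA {A : Type} [CommRing A] [Algebra ℂ A] (C : Ch A) : Prop :=
  ∃ ν : Fin 3 → Fin 3 → A, (∀ i a, C.Sy 0 (ν i a)) ∧ ∀ i f, C.Om i f = ∑ a, ν i a * C.an a f

/-- The jets of the words are bounded by the values of longer words and the jets of the gauge. -/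
def TUBEA : Prop := ∀ (A : Type) [CommRing A] [Algebra ℂ A] (C : Ch A) (F F0 : NF A)
  (t : Fin 4 → A), F.Ga F0 C t → OmA C → ∃ c0 > 0, ∀ (n s : ℕ) (ρ : ℝ), ∃ c > 0, ∃ B, 0 ≤ B ∧
  ∀ (x : C.Pt) (d y : ℝ), C.R0 x.1 ^ (-1 / 10 : ℝ) ≤ c0 → C.rr x ≤ ρ → d ≤ c →
    (∀ g : Gi, C.jet n ((F.df F0 C).at g) x ≤ d) → C.jet n F.al x ≤ d →
    (∀ (w : List Lt) k, w.length ≤ n + s → C.md x (Vw F F0 C w k) ≤ y) →
    ∀ (w : List Lt) k, w.length ≤ s → C.jet n (Vw F F0 C w k) x ≤ B * (y + d)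

end Vale.Agent.P354FX
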