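import Mathlib

/-!
The coefficients of one frame in another frame, when both are close to the frames of Kerr.
-/

noncomputable section

namespace Vale.Agent.P354FX

open Complex Matrix

theorem near {c d : Fin 4 → ℂ} {B B0 T : Fin 4 → Fin 4 → ℂ} {L δ ε : ℝ}
    (h0 : ∀ i j, ∑ k, B0 i k * T k j = if i = j then 1 else 0) (hT : ∀ i j, ‖T i j‖ ≤ L)
    (hB : ∀ i j, ‖B i j - B0 i j‖ ≤ δ) (hd : ∀ j, ‖d j‖ ≤ L)
    (hw : ∀ j, ‖∑ i, c i * B i j - ∑ i, d i * B0 i j‖ ≤ ε) (s : 32 * L * δ ≤ 1) (j : Fin 4) :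
    ‖c j - d j‖ ≤ 8 * L * ε + 32 * L ^ 2 * δ := by
  have l0 : 0 ≤ L := (norm_nonneg _).trans (hd 0)
  have d0 : 0 ≤ δ := (norm_nonneg _).trans (hB 0 0)
  have m0 := norm_nonneg (c - d)
  have m1 : ∀ j, ‖c j - d j‖ ≤ ‖c - d‖ := norm_le_pi_norm (c - d)
  have s4 : ∀ {f : Fin 4 → ℂ} {b : ℝ}, (∀ i, ‖f i‖ ≤ b) → ‖∑ i, f i‖ ≤ 4 * b := fun h =>
    (norm_sum_le _ _).trans (by rw [Fin.sum_univ_four]; linarith [h 0, h 1, h 2, h 3])
  have e : ‖c - d‖ ≤ 4 * ((ε + 4 * ((‖c - d‖ + L) * δ)) * L) := by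
    refine (pi_norm_le_iff_of_nonneg (by
      have := (norm_nonneg _).trans (hw 0); positivity)).2 fun j => ?_
    have : (c - d) j = ∑ k, (∑ i, c i * B i k - ∑ i, d i * B0 i k -
        ∑ i, c i * (B i k - B0 i k)) * T k j := by
      have : ∀ k, ∑ i, c i * B i k - ∑ i, d i * B0 i k - ∑ i, c i * (B i k - B0 i k) =
          ∑ i, (c i - d i) * B0 i k := fun k => by simp only [Fin.sum_univ_four]; ring
      simp only [this, Finset.sum_mul, mul_assoc]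
      rw [Finset.sum_comm]
      simp [← Finset.mul_sum, h0]
    rw [this]
    refine s4 fun k => (norm_mul_le _ _).trans (mul_le_mul (norm_sub_le_of_le (hw k)
      (s4 fun i => (norm_mul_le _ _).trans (mul_le_mul ?_ (hB i k) (norm_nonneg _)
        (by positivity)))) (hT k j) (norm_nonneg _) ?_)
    · exact (congrArg _ (sub_add_cancel _ _).symm).trans_le (norm_add_le_of_le (m1 i) (hd i))
    · have := (norm_nonneg _).trans (hw 0); positivity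
  nlinarith [m1 j, mul_le_mul_of_nonneg_left s m0]

/-- The values of r, x, s, sb, N, 1 / N, 1 / Sigma, a, Delta, 1 / Delta. -/
abbrev Nm : Type := Fin 10 → ℂ

variable (t : Nm)

/-- The components of the outgoing frame, of the dual frame and of two vectors of the ingoing
frame. -/
def B0 : Fin 4 → Fin 4 → ℂ :=
  ![![0, t 4, 0, 0],
    ![2 * t 5 * t 6 * (t 0 * t 0 + t 7 * t 7), -(t 5 * t 6 * t 8), I * t 7 * t 2 * t 5 * t 6,
      -(I * t 7 * t 3 * t 5 * t 6)],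
    ![I * t 7 * t 2 * (t 6 * (t 0 - I * t 7 * t 1)), 0, 0, t 6 * (t 0 - I * t 7 * t 1)],
    ![-(I * t 7 * t 3 * (t 6 * (t 0 + I * t 7 * t 1))), 0, t 6 * (t 0 + I * t 7 * t 1), 0]]

def Th (k j : Fin 4) : ℂ :=
  ![1, 0, I * t 7 * t 3, -(I * t 7 * t 2)] k / 2 * ![t 5 * t 6 * t 8, t 4,
    I * t 7 * t 3 * (t 6 * (t 0 + I * t 7 * t 1)), -(I * t 7 * t 2 * (t 6 * (t 0 - I * t 7 * t 1)))] j +
  ![![0, 0, 0, 0], ![t 5, 0, 0, 0], ![0, 0, 0, t 0 - I * t 7 * t 1],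
    ![0, 0, t 0 + I * t 7 * t 1, 0]] k j

def K0 : Bool → Fin 4 → ℂ
  | false => ![2 * t 4 * t 6 * (t 0 * t 0 + t 7 * t 7), t 4 * t 6 * t 8, I * t 7 * t 4 * t 6 * t 2,
      -(I * t 7 * t 4 * t 6 * t 3)]
  | true => B0 t 2

/-- The change of the chart, and the coefficients for Kerr. -/
def ch : Fin 4 → ℂ :=
  ![-(2 * (t 0 * t 0 + t 7 * t 7) * t 9), 0, -(t 7 * t 9 * (I * t 2)), t 7 * t 9 * (I * t 3)]
def dz : Bool → Fin 4 → ℂ
  | false => ![t 6 * t 8, 0, 0, 0]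
  | true => ![0, 0, 1, 0]

structure Nm.Is : Prop where
  hs : t 2 * t 3 = 1 - t 1 * t 1
  hN : t 4 * t 5 = 1
  hg : t 6 * (t 0 * t 0 + t 7 * t 7 * t 1 * t 1) = 1
  hD : t 8 * t 9 = 1

variable {t}

theorem Nm.Is.dual (h : t.Is) (i j : Fin 4) :
    ∑ k, B0 t i k * Th t k j = if i = j then 1 else 0 := by
  obtain ⟨a, b, c, -⟩ := h
  have := I_mul_I
  fin_cases i <;> fin_cases j <;> simp [B0, Th, Fin.sum_univ_four] <;> grind

theorem Nm.Is.chg (h : t.Is) (b : Bool) (j : Fin 4) :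
    K0 t b j + K0 t b 1 * ch t j = ∑ i, dz t b i * B0 t i j := by
  obtain ⟨-, -, -, d⟩ := h
  cases b <;> fin_cases j <;> simp [B0, K0, ch, dz, Fin.sum_univ_four] <;> grind

theorem bd (κ : ℝ) : ∃ L, 1 ≤ L ∧ ∀ t : Nm, ‖t‖ ≤ κ → (∀ i j, ‖Th t i j‖ ≤ L) ∧
    (∀ j, ‖ch t j‖ ≤ L) ∧ (∀ b j, ‖dz t b j‖ ≤ L) ∧
    ‖(t 0 * t 0 + t 7 * t 7 * t 1 * t 1) * t 9‖ ≤ L := by
  obtain ⟨L, hL⟩ := (isCompact_closedBall (0 : Nm) κ).exists_bound_of_continuousOn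
    (f := fun t => (Th t, ch t, dz t false, (t 0 * t 0 + t 7 * t 7 * t 1 * t 1) * t 9))
    (Continuous.continuousOn (by unfold Th ch dz; fun_prop))
  refine ⟨max 1 L, le_max_left _ _, fun t ht => ?_⟩
  have := (hL t (mem_closedBall_zero_iff.2 ht)).trans (le_max_right 1 L)
  simp only [norm_prod_le_iff] at this
  refine ⟨fun i j => ((norm_le_pi_norm _ j).trans (norm_le_pi_norm _ i)).trans this.1,
    fun j => (norm_le_pi_norm _ j).trans this.2.1, fun b j => ?_, this.2.2.2⟩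
  cases b
  · exact (norm_le_pi_norm _ j).trans this.2.2.1
  · fin_cases j <;> simp [dz]

/-- The coefficients of l and m. -/
theorem coef (κ : ℝ) : ∃ L, 1 ≤ L ∧ ∀ t : Nm, ‖t‖ ≤ κ → t.Is →
    ‖t 6 * t 8‖ ≤ L ∧ 1 ≤ L * ‖t 6 * t 8‖ ∧ ∀ δ, L * δ ≤ 1 → ∀ (B : Fin 4 → Fin 4 → ℂ) b
      (v c : Fin 4 → ℂ), (∀ i j, ‖B i j - B0 t i j‖ ≤ δ) → (∀ j, ‖v j - K0 t b j‖ ≤ δ) →
      (∀ j, v j + v 1 * ch t j = ∑ i, c i * B i j) → ∀ j, ‖c j - dz t b j‖ ≤ L * δ := by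
  obtain ⟨L, l1, hL⟩ := bd κ
  refine ⟨48 * L ^ 2, by nlinarith, fun t ht h => ?_⟩
  obtain ⟨a1, a2, a3, a4⟩ := hL t ht
  have a5 : ‖t 6 * t 8‖ ≤ L := a3 false 0
  refine ⟨by nlinarith, ?_, fun δ s B b v c hB hv e j => ?_⟩
  · have : ‖(t 0 * t 0 + t 7 * t 7 * t 1 * t 1) * t 9‖ * ‖t 6 * t 8‖ = 1 := by
      rw [← norm_mul, ← norm_one (α := ℂ)]
      congr 1
      linear_combination t 8 * t 9 * h.hg + h.hD
    nlinarith [mul_le_mul_of_nonneg_right a4 (norm_nonneg (t 6 * t 8)),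
      mul_nonneg (norm_nonneg (t 6 * t 8)) (show 0 ≤ 48 * L ^ 2 - L by nlinarith)]
  have d0 : 0 ≤ δ := (norm_nonneg _).trans (hv 0)
  refine (near (ε := δ + δ * L) h.dual a1 hB (a3 b) (fun j => ?_) (by nlinarith) j).trans
    (by nlinarith [mul_nonneg d0 (show 0 ≤ L ^ 2 - L by nlinarith)])
  rw [← e, ← h.chg, show v j + v 1 * ch t j - (K0 t b j + K0 t b 1 * ch t j) =
    v j - K0 t b j + (v 1 - K0 t b 1) * ch t j by ring]
  exact norm_add_le_of_le (hv j) ((norm_mul_le _ _).trans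
    (mul_le_mul (hv 1) (a2 j) (norm_nonneg _) d0))

end Vale.Agent.P354FX
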