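import Vale.Agent.P354FX.Rev
import Vale.Agent.P354FX.Nr
import Vale.Agent.P354YA.Uni
import Vale.Agent.P354YK.La

/-!
Homomorphisms and the jets; the components of one frame in another frame.
-/

set_option linter.unusedSimpArgs false

noncomputable section

namespace Vale.Agent.P354FX

open Sum
open Vale.Agent.P354XG Vale.Agent.P354XG.Geo Vale.Agent.P354XD Vale.Agent.P354XR Vale.Agent.P354Z
open Vale.Agent.P354FA (Lt val Gam Dl Ps)
open Vale.Agent.P354YK (out oth otp oet oep orh orh2 ga gab cm_V)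
open Vale.Agent.P354YA (HHom PHom map_ii)

variable {A B : Type} [CommRing A] [Algebra ℂ A] [CommRing B] [Algebra ℂ B] {φ : A →ₐ[ℂ] B}

section ghp
variable {G : GHP A} {G' : GHP B} (h : GHP.Hom G G' φ)
include h

theorem Dl_hom (x : Lt) (f : A) : φ (Dl G x f) = Dl G' x (φ f) := by
  obtain ⟨_ | _, _ | _⟩ := x
  exacts [h.th f, h.et f, h.ep f, h.tp f]

theorem Gam_hom (x : Lt) (g : P354FA.Gn) : φ (Gam G x g) = Gam G' x g := by
  obtain ⟨_ | _, _ | _⟩ := x <;> cases g <;>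
    simp only [Gam, h.c, h.ka, h.si, h.rh, h.ta, h.ka', h.si', h.rh', h.ta', map_zero]

theorem Ps_hom (k : ℕ) : φ (Ps G k) = Ps G' k :=
  match k with
  | 0 => h.P0
  | 1 => h.P1
  | 2 => h.P2
  | 3 => h.P3
  | 4 => h.P4
  | _ + 5 => map_zero φ

theorem val_hom (c : Bool) (w : List Lt) (k : ℕ) : φ (val G (c, w, k)) = val G' (c, w, k) := by
  induction hn : w.length generalizing w k with
  | zero =>
    obtain rfl := List.length_eq_zero_iff.1 hn
    cases c <;> simp only [P354FA.val_nil, P354FA.val_nil', h.c, Ps_hom h]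
  | succ m ih =>
    obtain ⟨x, w, rfl⟩ := List.exists_cons_of_length_eq_add_one hn
    have hl : w.length = m := by simpa using hn
    have e : ∀ g, dw g w (fun w' => φ (val G (c, w', k))) = dw g w fun w' => val G' (c, w', k) :=
      fun g => dw_congr g w fun w' e => ih w' k (e.trans hl)
    simp only [val_rec, List.map, List.sum_cons, List.sum_nil, map_add, map_mul, map_zero,
      map_intCast, map_dw, e, Dl_hom h, Gam_hom h, ih w _ hl]

theorem wG_hom (w : List Lt) (f : A) : φ (wG G (w.map inl) f) = wG G' (w.map inl) (φ f) := by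
  induction w with
  | nil => rfl
  | cons x w ih => exact (Dl_hom h x _).trans (congrArg _ ih)

end ghp

variable {K : Hp A} {K' : Hp B} {p q : Pm A} {p' : Pm B}

theorem out_hom (h : HHom K K' φ) (q : PHom p p' φ) :
    GHP.Hom (out (kk K p)) (out (kk K' p')) φ := by
  have r : φ (kk K p).r = (kk K' p').r := h.z 1
  have x : φ (kk K p).x = (kk K' p').x := h.xs.1
  have s : φ (kk K p).s = (kk K' p').s := h.xs.2.1
  have sb : φ (kk K p).sb = (kk K' p').sb := h.xs.2.2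
  have N : φ (kk K p).N = (kk K' p').N := h.N
  have Ni : φ (kk K p).Ni = (kk K' p').Ni := h.Ni
  have sg : φ (kk K p).sg = (kk K' p').sg := q.sg
  have a : φ (kk K p).a = (kk K' p').a := q.a
  have M : φ (kk K p).M = (kk K' p').M := q.M
  refine ⟨h.c, ?_, ?_, ?_, ?_, h.H, h.Bf, ?_, ?_, ?_, ?_, ?_, ?_, ?_, ?_, ?_, ?_, ?_, ?_, ?_⟩ <;>
    simp only [out, oth, otp, oet, oep, orh, orh2, ga, gab, KC.ta, KC.ta2, KC.P2, h.kkV q, KC.W,
      KC.De, KC.ee, KC.z, KC.zb, map_add, map_sub, map_mul, map_neg, map_zero, map_ofNat, map_ii, r,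
      x, s, sb, N, Ni, sg, a, M, implies_true]

theorem cm_hom (h : HHom K K' φ) (q : PHom p p' φ) {D : Der A} {D' : Der B}
    (e : ∀ f, φ (D f) = D' (φ f)) (j : Fin 6) : φ (cm K p D j) = cm K' p' D' j := by
  fin_cases j <;> simp [cm, e, h.z, h.Ni, h.xs, q.h1, q.j1, map_ii]

/-- The image of the parameters. -/
def pim (φ : A →ₐ[ℂ] B) (p : Pm A) : Pm B := ⟨φ p.a, φ p.M, φ p.sg, φ p.h1, φ p.j1⟩

theorem pim_hom : PHom p (pim φ p) φ := ⟨rfl, rfl, rfl, rfl, rfl⟩

def e6 : Fin 4 → Fin 6 := ![0, 1, 2, 3]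

theorem cm_chg (D : Der A) (j : Fin 4) : cm K q D (e6 j) = cm K p D (e6 j) + cm K p D 1 *
    ![q.h1 - p.h1, 0, (q.j1 - p.j1) * (ii A * K.kc.s), (p.j1 - q.j1) * (ii A * K.kc.sb)] j := by
  fin_cases j <;> simp [cm, e6] <;> ring

variable {g : Fin 4 → Fin 4 → A} {Γ : Fin 4 → Fin 4 → Fin 4 → A} {F : Fr A}

theorem cm_act (h : K.Is) (u : Op A) (j : Fin 4) :
    cm K p ((K.geo g Γ).act u) (e6 j) = ∑ a, u.X a * cm K p (K.L a) (e6 j) := by
  obtain ⟨-, -, -, -, -, -, -, -, -, -, -, -, -, -, c, d⟩ := h.tab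
  fin_cases j <;> simp [cm, e6, act_apply, Hp.geo, c, d, Fin.sum_univ_four] <;> ring

/-- The coefficients of a vector in the frame. -/
def co (S : Geo A) (F : Fr A) (X : Vec A) : Fin 4 → A :=
  ![-S.dot X F.n, -S.dot X F.l, S.dot X F.mb, S.dot X F.m]

theorem cm_span (h : K.Is) (hS : (K.geo g Γ).Is) (N : F.Nl (K.geo g Γ)) (u : Op A) (j : Fin 4) :
    cm K p ((K.geo g Γ).act u) (e6 j) =
      ∑ i, co (K.geo g Γ) F u.X i * cm K p (f4 (F.ghp (K.geo g Γ)) i) (e6 j) := by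
  have e := congrFun (Null.span hS N u.X)
  have f : ∀ i, cm K p (f4 (F.ghp (K.geo g Γ)) i) (e6 j) =
      ∑ a, ![F.l, F.n, F.m, F.mb] i a * cm K p (K.L a) (e6 j) := fun i => by
    fin_cases i <;> exact cm_act h _ j
  simp only [Pi.add_apply, Pi.smul_apply, smul_eq_mul] at e
  simp only [cm_act h, f, co, Fin.sum_univ_four, Matrix.cons_val]
  linear_combination cm K p (K.L 0) (e6 j) * e 0 + cm K p (K.L 1) (e6 j) * e 1 +
    cm K p (K.L 2) (e6 j) * e 2 + cm K p (K.L 3) (e6 j) * e 3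

/-- The values of the generators. -/
def nm (φ : A →ₐ[ℂ] ℂ) (k : KC A) : Nm :=
  ![φ k.r, φ k.x, φ k.s, φ k.sb, φ k.N, φ k.Ni, φ k.sg, φ k.a, φ k.De, (φ k.De)⁻¹]

variable {φ : A →ₐ[ℂ] ℂ}

theorem nm_is {k : KC A} (h : k.Is) (e : φ k.De ≠ 0) : (nm φ k).Is :=
  ⟨by simpa [nm] using congrArg φ h.hs, by simpa [nm] using congrArg φ h.hN,
    by simpa [nm] using congrArg φ h.hg, mul_inv_cancel₀ e⟩

theorem ev_ii : φ (ii A) = Complex.I := φ.commutes _

theorem cm_out (h : K.Is) (i j : Fin 4) :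
    φ (cm K p (f4 (out (kk K p)) i) (e6 j)) = B0 (nm φ (kk K p)) i j := by
  fin_cases i <;> fin_cases j <;>
    simp [f4, out, oth, otp, oet, oep, cm_V h, e6, B0, nm, KC.W, KC.z, KC.zb, ev_ii, map_ofNat]

theorem cm_kerr (h : K.Is) (b : Bool) (j : Fin 4) :
    φ (cm K p (f4 (kk K p).kerr (cond b 2 0)) (e6 j)) = K0 (nm φ (kk K p)) b j := by
  cases b <;> fin_cases j <;>
    simp [f4, KC.kerr, KC.th, KC.et, cm_V h, e6, K0, B0, nm, KC.W, KC.z, KC.zb, ev_ii, map_ofNat]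

end Vale.Agent.P354FX
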