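import Vale.Agent.P354FX.Cov
import Vale.Agent.P354FX.Cl

/-!
In a transverse frame all derivatives are universal rational functions of the jets of the Weyl
spinor.
-/

set_option linter.unusedSimpArgs false

noncomputable section

namespace Vale.Agent.P354FX

open MvPolynomial Filter Sum
open Vale.Agent.P354XG
open Vale.Agent.P354FA (Lt Gn Var val wc wt lc lt Gam Dl)

section ring
variable {A : Type*} [CommRing A]

/-- The action of a generator, the connection term, the determinant, the connection. -/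
def Ac (V : Var → A) (g : Gn) (c : Bool) (w : List Lt) (k : ℕ) : A :=
  dw g w (fun w' => V (c, w', k)) + wc g c k * V (c, w, wt g k)
def cn4 (Γ : Gn → A) (V : Var → A) (c : Bool) (w : List Lt) (k : ℕ) : A :=
  Γ .F * Ac V .F c w k + Γ .E * Ac V .E c w k + Γ .Fb * Ac V .Fb c w k + Γ .Eb * Ac V .Eb c w k
def De (V : Var → A) (c : Bool) : A :=
  9 * (V (c, [], 2) * V (c, [], 2)) - V (c, [], 0) * V (c, [], 4)
def gu (V : Var → A) (I : Bool → A) (x : Lt) (c : Bool) (i : ℕ) : A :=
  I c * (3 * (V (c, [], 2) * V (c, [x], 1 + i / 2)) - V (c, [], i) * V (c, [x], 3 - i / 2))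
def gf (V : Var → A) (I : Bool → A) (x : Lt) : Gn → A
  | .F => gu V I x false 0
  | .E => gu V I x false 4
  | .Fb => gu V I x true 0
  | .Eb => gu V I x true 4
  | _ => 0

/-- The small quantities and their levels. -/
def sb (V : Var → A) (Γ : Lt → Gn → A) : Fin 6 → A :=
  ![V (false, [], 0), V (false, [], 4), Γ (false, false) .F, Γ (false, true) .F,
    Γ (true, true) .E, Γ (true, false) .E]
def lv (i : Fin 6) : ℕ := if i.val < 2 then 0 else 1

variable {B F : Type*} [CommRing B] [FunLike F A B] [RingHomClass F A B] (f : F)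

theorem map_dw (g : Gn) (w : List Lt) (u : List Lt → A) :
    f (dw g w u) = dw g w fun w' => f (u w') := by
  induction w generalizing u with
  | nil => exact map_zero f
  | cons x w ih => simp only [dw, map_add, map_mul, map_intCast, ih]

theorem map_Ac (V : Var → A) (g : Gn) (c : Bool) (w : List Lt) (k : ℕ) :
    f (Ac V g c w k) = Ac (fun v => f (V v)) g c w k := by
  simp only [Ac, map_add, map_mul, map_intCast, map_dw]

theorem map_gf (V : Var → A) (I : Bool → A) (x : Lt) (g : Gn) :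
    f (gf V I x g) = gf (fun v => f (V v)) (fun c => f (I c)) x g := by
  cases g <;> simp only [gf, gu, map_mul, map_sub, map_ofNat, map_zero]

end ring

/-- The formal ring. -/
abbrev Fq := MvPolynomial (Var ⊕ Bool) ℤ

def LV : Lv (Var ⊕ Bool) :=
  ⟨Sum.elim (fun v => v.2.1.length) fun _ => 0, Sum.elim (fun v => v.2.2 ≤ 4) fun _ => True⟩

def xv (v : Var) : Fq := if v.2.1 = [] ∧ (v.2.2 = 1 ∨ v.2.2 = 3) then 0 else X (inl v)
def xi (c : Bool) : Fq := X (inr c)

def d0 : Lt ⊕ Bool → Var → Fq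
  | inl x, v => xv (v.1, x :: v.2.1, v.2.2) - cn4 (gf xv xi x) xv v.1 v.2.1 v.2.2
  | inr b, v => Ac xv (cond b .Hb .H) v.1 v.2.1 v.2.2

def DF (b : Lt ⊕ Bool) : Derivation ℤ Fq Fq := mkDerivation ℤ (Sum.elim (d0 b) fun c =>
  -(xi c * xi c * (18 * (xv (c, [], 2) * d0 b (c, [], 2)) - xv (c, [], 0) * d0 b (c, [], 4) -
    xv (c, [], 4) * d0 b (c, [], 0))))

variable {j n k : ℕ} {c : Bool} {w : List Lt}

theorem cl_xv (hk : k ≤ 4) (h1 : w.length ≤ j) (h2 : w.length ≤ n) : Cl LV j n (xv (c, w, k)) := by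
  unfold xv
  split_ifs
  exacts [.zero, .x _ hk h1 h2]

theorem cl_xi : Cl LV j 0 (xi c) := .x _ trivial j.zero_le le_rfl

theorem cl_dw {σ : Type} {L : Lv σ} (g : Gn) {u : List Lt → MvPolynomial σ ℤ}
    (h : ∀ w', w'.length = w.length → Cl L j n (u w')) : Cl L j n (dw g w u) := by
  induction w generalizing u with
  | nil => exact .zero
  | cons x w ih => exact ((h (lt g x :: w) rfl).zmul _).add (ih fun w' e => h _ (by simp [e]))

theorem wt_le {g : Gn} (hk : k ≤ 4) (h : wc g c k ≠ 0) : wt g k ≤ 4 := by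
  cases g <;> cases c <;> simp only [wc, wt] at h ⊢ <;> omega

theorem cl_Ac (g : Gn) (hk : k ≤ 4) (h : w.length ≤ j) : Cl LV j w.length (Ac xv g c w k) := by
  refine (cl_dw g fun w' e => cl_xv hk (e.trans_le h) e.le).add ?_
  by_cases e : wc g c k = 0
  · rw [e, Int.cast_zero, zero_mul]; exact .zero
  · exact (cl_xv (wt_le hk e) h le_rfl).zmul _

theorem cl_gf (h : 1 ≤ j) (x : Lt) (g : Gn) : Cl LV j 1 (gf xv xi x g) := by
  have e : ∀ c i, i ≤ 4 → Cl LV j 1 (gu xv xi x c i) := fun c i hi =>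
    cl_xi.mul (Cl.sub (.num 3 ((cl_xv (n := 0) (by omega) j.zero_le le_rfl).mul
      (cl_xv (n := 1) (by omega) h le_rfl) le_rfl)) ((cl_xv (n := 0) hi j.zero_le le_rfl).mul
      (cl_xv (n := 1) (by omega) h le_rfl) le_rfl)) le_rfl
  cases g
  exacts [e _ _ (by omega), e _ _ le_rfl, .zero, e _ _ (by omega), e _ _ le_rfl, .zero]

theorem cl_cn4 (hk : k ≤ 4) (h1 : 1 ≤ j) (h : w.length ≤ j) (x : Lt) :
    Cl LV j (w.length + 1) (cn4 (gf xv xi x) xv c w k) := by
  have e := fun g => (cl_gf h1 x g).mul (cl_Ac (c := c) g hk h) (add_comm _ _).le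
  exact (((e _).add (e _)).add (e _)).add (e _)

theorem cl_d0 (hk : k ≤ 4) (b : Lt ⊕ Bool) :
    Cl LV (w.length + 1) (w.length + 1) (d0 b (c, w, k)) := by
  cases b
  · exact (cl_xv (w := _ :: w) hk le_rfl le_rfl).sub (cl_cn4 hk (Nat.le_add_left _ _) (Nat.le_succ _) _)
  · exact (cl_Ac _ hk (Nat.le_succ _)).mono le_rfl (Nat.le_succ _)

theorem cl_DF (b : Lt ⊕ Bool) {P : Fq} (h : Cl LV j n P) : Cl LV (j + 1) (n + 1) (DF b P) := by
  refine h.der fun s hs => ?_
  rw [DF, mkDerivation_X]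
  obtain ⟨c, w, k⟩ | c := s
  · exact cl_d0 hs b
  · have e : ∀ i i', i ≤ 4 → i' ≤ 4 → Cl LV 1 1 (xv (c, [], i) * d0 b (c, [], i')) :=
      fun i i' h h' => (cl_xv (n := 0) h (by simp) le_rfl).mul (cl_d0 (w := []) h' b) le_rfl
    exact ((cl_xi.mul cl_xi le_rfl).mul ((((e _ _ (by omega) (by omega)).num 18).sub
      (e _ _ (by omega) le_rfl)).sub (e _ _ le_rfl (by omega))) le_rfl).neg

/-- The formal words. -/
def wF (u : List (Lt ⊕ Bool)) (P : Fq) : Fq := u.foldr (fun b => DF b) P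

theorem cl_wF (u : List (Lt ⊕ Bool)) {P : Fq} (h : Cl LV j n P) :
    Cl LV (j + u.length) (n + u.length) (wF u P) := by
  induction u with
  | nil => exact h
  | cons b u ih => exact cl_DF b ih

theorem cl_sb (i : Fin 6) : Cl LV (lv i) (lv i) (sb xv (gf xv xi) i) := by
  fin_cases i
  exacts [cl_xv (w := []) (Nat.zero_le 4) le_rfl le_rfl, cl_xv (w := []) le_rfl le_rfl le_rfl,
    cl_gf le_rfl (false, false) .F, cl_gf le_rfl (false, true) .F, cl_gf le_rfl (true, true) .E,
    cl_gf le_rfl (true, false) .E]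

/-- The principal part of a word. -/
theorem cl_top (hk : k = 0 ∨ k = 4) (x : Lt) (w : List Lt) : Cl LV w.length (w.length + 1)
    (wF ((x :: w).map inl) (xv (false, [], k)) - xv (false, x :: w, k)) := by
  have e : ∀ y w, w ≠ [] ∨ k = 0 ∨ k = 4 → DF (inl y) (xv (false, w, k)) =
      xv (false, y :: w, k) - cn4 (gf xv xi y) xv false w k := fun y w h => by
    rw [xv, if_neg (by rintro ⟨h1, h2⟩; simp only at h1 h2; rcases h with h | h; exacts [h h1, by omega]),
      DF, mkDerivation_X]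
    rfl
  induction w generalizing x with
  | nil =>
    rw [wF, List.map_singleton, List.foldr_cons, List.foldr_nil, e _ _ (.inr hk)]
    rcases hk with rfl | rfl <;> simpa [cn4, Ac, dw, wc, wt, xv] using Cl.zero
  | cons y w ih =>
    have := (cl_DF (inl x) (ih y)).sub
      (cl_cn4 (c := false) (w := y :: w) (show k ≤ 4 by omega) (by simp) le_rfl x)
    rwa [map_sub, e _ _ (.inl (by simp)), ← sub_add, add_sub_cancel_right] at this

variable {A : Type*} [CommRing A] [Algebra ℂ A]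

/-- Jet data. -/
structure Jd (A : Type*) [CommRing A] [Algebra ℂ A] where
  D : Lt ⊕ Bool → Der A
  V : Var → A
  G : Lt → Gn → A
  I : Bool → A

namespace Jd
variable (J : Jd A)

structure Is : Prop where
  hor : ∀ x c w k, k ≤ 4 →
    J.D (inl x) (J.V (c, w, k)) = J.V (c, x :: w, k) - cn4 (J.G x) J.V c w k
  ver : ∀ b c w k, k ≤ 4 → J.D (inr b) (J.V (c, w, k)) = Ac J.V (cond b .Hb .H) c w k
  p1 : ∀ c, J.V (c, [], 1) = 0
  p3 : ∀ c, J.V (c, [], 3) = 0
  inv : ∀ c, J.I c * De J.V c = 1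

def u : Var ⊕ Bool → A := Sum.elim J.V J.I
def wd (u : List (Lt ⊕ Bool)) (f : A) : A := u.foldr (fun b => J.D b) f

variable {J} (h : J.Is)
include h

theorem Is.xv (v : Var) : aeval J.u (xv v) = J.V v := by
  obtain ⟨c, w, k⟩ := v
  unfold P354FX.xv
  split_ifs with e
  · obtain ⟨rfl, rfl | rfl⟩ := e
    exacts [by rw [h.p1, map_zero], by rw [h.p3, map_zero]]
  · exact aeval_X _ _

theorem Is.G_eq (x : Lt) : gf J.V J.I x .F = J.G x .F ∧ gf J.V J.I x .E = J.G x .E ∧
    gf J.V J.I x .Fb = J.G x .Fb ∧ gf J.V J.I x .Eb = J.G x .Eb := by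
  have a := fun c => h.hor x c [] 1 (by omega)
  have b := fun c => h.hor x c [] 3 (by omega)
  have a1 := a false
  have a2 := a true
  have b1 := b false
  have b2 := b true
  have i1 := h.inv false
  have i2 := h.inv true
  simp only [h.p1, h.p3, D_zero, cn4, Ac, dw, wc, wt, De] at a1 a2 b1 b2 i1 i2
  simp only [gf, gu]
  norm_num at a1 a2 b1 b2 ⊢
  refine ⟨?_, ?_, ?_, ?_⟩
  · linear_combination J.G x .F * i1 - J.I false * (3 * J.V (false, [], 2) * a1 -
      J.V (false, [], 0) * b1)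
  · linear_combination J.G x .E * i1 - J.I false * (3 * J.V (false, [], 2) * b1 -
      J.V (false, [], 4) * a1)
  · linear_combination J.G x .Fb * i2 - J.I true * (3 * J.V (true, [], 2) * a2 -
      J.V (true, [], 0) * b2)
  · linear_combination J.G x .Eb * i2 - J.I true * (3 * J.V (true, [], 2) * b2 -
      J.V (true, [], 4) * a2)

theorem Is.d0 (b : Lt ⊕ Bool) (hk : k ≤ 4) : aeval J.u (d0 b (c, w, k)) = J.D b (J.V (c, w, k)) := by
  have i : ∀ c, aeval J.u (xi c) = J.I c := fun c => aeval_X _ _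
  cases b with
  | inl x => simp only [P354FX.d0, cn4, map_sub, map_add, map_mul, map_Ac, map_gf, h.xv, i,
      h.G_eq x, h.hor x c w k hk]
  | inr b => simp only [P354FX.d0, map_Ac, h.xv, h.ver b c w k hk]

theorem Is.wF (u : List (Lt ⊕ Bool)) {P : Fq} (hP : Cl LV j n P) :
    aeval J.u (wF u P) = J.wd u (aeval J.u P) := by
  induction u with
  | nil => rfl
  | cons b u ih =>
    refine ((cl_wF u hP).ev (d := J.D b) fun s hs => ?_).trans (congrArg _ ih)
    rw [DF, mkDerivation_X]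
    obtain ⟨c, w, k⟩ | c := s
    · exact h.d0 b hs
    · have i := h.inv c
      have e := congrArg (J.D b) i
      simp only [De, D_mul, D_sub, D_num, D_one] at e i
      simp only [Sum.elim_inr, map_neg, map_mul, map_sub, map_ofNat, h.xv, xi, aeval_X,
        h.d0 b (show 0 ≤ 4 by omega), h.d0 b (show 2 ≤ 4 by omega), h.d0 b le_rfl]
      simp only [Jd.u, Sum.elim_inr]
      linear_combination J.D b (J.I c) * i - J.I c * e

theorem Is.sb (i : Fin 6) : aeval J.u (sb P354FX.xv (gf P354FX.xv xi) i) = sb J.V J.G i := by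
  have e : ∀ c, aeval J.u (xi c) = J.I c := fun c => aeval_X _ _
  fin_cases i <;> simp [P354FX.sb, map_gf, h.xv, e, h.G_eq]

omit h in
theorem wd_zero (u : List (Lt ⊕ Bool)) : J.wd u 0 = 0 := by
  induction u with
  | nil => rfl
  | cons b u ih => exact (congrArg _ ih).trans (map_zero _)

end Jd

theorem map_aeval' {σ : Type} (φ : A →ₐ[ℂ] ℂ) (u : σ → A) (P : MvPolynomial σ ℤ) :
    φ (aeval u P) = aeval (fun s => φ (u s)) P := by
  induction P using MvPolynomial.induction_on <;> simp [*]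

end Vale.Agent.P354FX
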