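import Vale.Agent.P354FX.Bo
import Vale.Agent.P354FA.Src

/-!
Tables of numbers: null rotations, the parameters of a transverse frame, symmetrisation.
-/

set_option linter.unusedSimpArgs false

noncomputable section

namespace Vale.Agent.P354FX

open MvPolynomial Filter Finset
open Vale.Agent.P354FA (Lt Var mv Q2 Sx)

theorem row_lip {ι : Type} [DecidableEq ι] {s : Finset ι} (hs : s.card ≤ 5) {x : ι} (hx : x ∈ s)
    {r f g : ι → ℂ} {ε δ K : ℝ} (e1 : ε ≤ 1) (hr : ∀ y ∈ s, ‖r y - if x = y then 1 else 0‖ ≤ ε)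
    (h : ∀ y ∈ s, ‖f y - g y‖ ≤ δ ∧ ‖g y‖ ≤ K) :
    ‖∑ y ∈ s, r y * f y - g x‖ ≤ 5 * (2 * δ + ε * K) := by
  have e0 : 0 ≤ ε := (norm_nonneg _).trans (hr x hx)
  have d0 : 0 ≤ δ := (norm_nonneg _).trans (h x hx).1
  have k0 : 0 ≤ K := (norm_nonneg _).trans (h x hx).2
  have e : ∑ y ∈ s, r y * f y - g x =
      ∑ y ∈ s, (r y * (f y - g y) + (r y - if x = y then 1 else 0) * g y) := by
    simp [mul_sub, sub_mul, sum_sub_distrib, hx]
  rw [e]
  refine (norm_sum_le _ _).trans ((sum_le_card_nsmul _ _ (2 * δ + ε * K) fun y hy => ?_).trans ?_)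
  · have : ‖r y‖ ≤ 2 := by
      have := norm_add_le (r y - if x = y then 1 else 0) (if x = y then 1 else 0)
      have t : ‖(if x = y then 1 else 0 : ℂ)‖ ≤ 1 := by split_ifs <;> simp
      rw [sub_add_cancel] at this
      linarith [hr y hy]
    refine norm_add_le_of_le ?_ ?_ <;> rw [norm_mul]
    exacts [mul_le_mul this (h y hy).1 (norm_nonneg _) zero_le_two,
      mul_le_mul (hr y hy) (h y hy).2 (norm_nonneg _) e0]
  · rw [nsmul_eq_mul]
    exact mul_le_mul_of_nonneg_right (by exact_mod_cast hs) (by positivity)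

theorem ev_lip {L : Lt → Lt → ℂ} {ε δ K : ℝ} (e1 : ε ≤ 1)
    (hL : ∀ x y, ‖L x y - if x = y then 1 else 0‖ ≤ ε) (w : List Lt) {f g : List Lt → ℂ}
    (h : ∀ w', w'.length = w.length → ‖f w' - g w'‖ ≤ δ ∧ ‖g w'‖ ≤ K) :
    ‖ev (w.map L) f - g w‖ ≤ 11 ^ w.length * (δ + ε * K) := by
  have k0 := mul_nonneg ((norm_nonneg _).trans (hL default default))
    ((norm_nonneg _).trans (h w rfl).2)
  have d0 : 0 ≤ δ := (norm_nonneg _).trans (h w rfl).1
  induction w generalizing f g δ with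
  | nil => simpa [ev] using (h [] rfl).1.trans (le_add_of_nonneg_right k0)
  | cons x w ih =>
    refine (ih (g := fun I => g (x :: I)) (fun I e => ⟨row_lip (by simp) (mem_univ x) e1
      (fun y _ => hL x y) fun y _ => h (y :: I) (by simp [e]), (h (x :: I) (by simp [e])).2⟩)
      (by positivity)).trans ?_
    rw [List.length_cons, pow_succ, mul_assoc]
    exact mul_le_mul_of_nonneg_left (by linarith) (by positivity)

/-- The transformation of a table. -/
def Rt (ρ : ℕ → ℕ → ℂ) (L : Lt → Lt → ℂ) (g : List Lt → ℕ → ℂ) (w : List Lt) (k : ℕ) : ℂ :=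
  ∑ j ∈ range 5, ρ k j * ev (w.map L) fun w' => g w' j

/-- The matrices are close to the identity. -/
def Ne1 (ρ : ℕ → ℕ → ℂ) (L : Lt → Lt → ℂ) (ε : ℝ) : Prop :=
  (∀ k ≤ 4, ∀ j ≤ 4, ‖ρ k j - if k = j then 1 else 0‖ ≤ ε) ∧
    ∀ x y, ‖L x y - if x = y then 1 else 0‖ ≤ ε

theorem rt_lip {ρ : ℕ → ℕ → ℂ} {L : Lt → Lt → ℂ} {ε δ K : ℝ} (e1 : ε ≤ 1) (hL : Ne1 ρ L ε)
    (w : List Lt) {f g : List Lt → ℕ → ℂ}
    (h : ∀ w', w'.length = w.length → ∀ j ≤ 4, ‖f w' j - g w' j‖ ≤ δ ∧ ‖g w' j‖ ≤ K) {k : ℕ}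
    (hk : k ≤ 4) : ‖Rt ρ L f w k - g w k‖ ≤ 15 * (11 ^ w.length * (δ + ε * K)) := by
  have k0 := mul_nonneg ((norm_nonneg _).trans (hL.2 default default))
    ((norm_nonneg _).trans (h w rfl k hk).2)
  have d0 : 0 ≤ δ := (norm_nonneg _).trans (h w rfl k hk).1
  have j4 : ∀ j ∈ range 5, j ≤ 4 := fun j hj => Nat.lt_succ_iff.1 (mem_range.1 hj)
  refine (row_lip (by simp) (mem_range.2 (Nat.lt_succ_of_le hk)) e1
    (fun j hj => hL.1 k hk j (j4 j hj)) fun j hj => ⟨ev_lip (g := fun w' => g w' j) e1 hL.2 w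
      fun w' e => h w' e j (j4 j hj), (h w rfl j (j4 j hj)).2⟩).trans ?_
  have : δ + ε * K ≤ 11 ^ w.length * (δ + ε * K) :=
    le_mul_of_one_le_left (by positivity) (one_le_pow₀ (by norm_num))
  linarith

theorem rm_le {a : ℂ} (h : ‖a‖ ≤ 1) {k j : ℕ} (hk : k ≤ 4) (hj : j ≤ 4) :
    ‖rm a k j - if k = j then 1 else 0‖ ≤ 6 * ‖a‖ := by
  have n := norm_nonneg a
  have e : ∀ i, ‖a‖ ^ (i + 1) ≤ ‖a‖ := fun i => pow_le_of_le_one n h (by omega)
  have e1 : ‖a‖ ^ 2 ≤ _ := e 1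
  have e2 : ‖a‖ ^ 3 ≤ _ := e 2
  have e3 : ‖a‖ ^ 4 ≤ _ := e 3
  interval_cases k <;> interval_cases j <;> norm_num [rm, Nat.choose] <;> linarith

theorem ne1_n {a a' : ℂ} (h : ‖a‖ ≤ 1) (e : ‖a'‖ = ‖a‖) : Ne1 (rm a) (Ln a a') (6 * ‖a‖) := by
  have n := norm_nonneg a
  refine ⟨fun k hk j hj => rm_le h hk hj, fun ⟨x, x'⟩ ⟨y, y'⟩ => ?_⟩
  cases x <;> cases x' <;> cases y <;> cases y' <;> simp [Ln, e] <;> nlinarith

theorem ne1_l {a a' : ℂ} (h : ‖a‖ ≤ 1) (e : ‖a'‖ = ‖a‖) :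
    Ne1 (fun k j => rm a (4 - k) (4 - j)) (Ll a a') (6 * ‖a‖) := by
  have n := norm_nonneg a
  refine ⟨fun k hk j hj => ?_, fun ⟨x, x'⟩ ⟨y, y'⟩ => ?_⟩
  · simpa only [show 4 - k = 4 - j ↔ k = j by omega] using
      rm_le h (Nat.sub_le 4 k) (Nat.sub_le 4 j)
  cases x <;> cases x' <;> cases y <;> cases y' <;> simp [Ll, e] <;> nlinarith

theorem mon_le {a b : ℂ} {x : ℕ → ℂ} {δ : ℝ} (ha : ‖a‖ ≤ 1) (hb : ‖b‖ ≤ 1)
    (l : List (ℕ × ℕ × ℕ × ℕ)) (h : ∀ t ∈ l, ‖x t.2.2.2‖ ≤ δ) :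
    ‖(l.map fun t => t.1 * (a ^ t.2.1 * b ^ t.2.2.1 * x t.2.2.2)).sum‖ ≤
      (l.map fun t => (t.1 : ℝ)).sum * δ := by
  induction l with
  | nil => simp
  | cons t l ih =>
    simp only [List.map_cons, List.sum_cons, add_mul]
    refine norm_add_le_of_le ?_ (ih fun s e => h s (List.mem_cons_of_mem _ e))
    rw [norm_mul, Complex.norm_natCast, norm_mul, norm_mul, norm_pow, norm_pow]
    exact mul_le_mul_of_nonneg_left ((mul_le_of_le_one_left (norm_nonneg _) (mul_le_one₀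
      (pow_le_one₀ (norm_nonneg _) ha) (by positivity) (pow_le_one₀ (norm_nonneg _) hb))).trans
      (h t List.mem_cons_self)) (by positivity)

/-- The parameters of the passage to a transverse frame. -/
theorem ab_le {a b : ℂ} {x y : ℕ → ℂ} {δ : ℝ} (ha : ‖a‖ ≤ 1 / 2) (hb : ‖b‖ ≤ 1 / 2)
    (hx : ∀ k ≤ 4, k ≠ 2 → ‖x k‖ ≤ δ) (hy : ∀ k ≤ 4, y k = ∑ j ∈ range 5, rm a k j * x j)
    (h1 : ∑ j ∈ range 5, rm b (4 - 1) (4 - j) * y j = 0)
    (h3 : ∑ j ∈ range 5, rm b (4 - 3) (4 - j) * y j = 0) :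
    ‖a‖ * ‖x 2‖ ≤ 10 * δ ∧ ‖b‖ * ‖x 2‖ ≤ 32 * δ := by
  have a1 : ‖a‖ ≤ 1 := by linarith
  have b1 : ‖b‖ ≤ 1 := by linarith
  have x0 := hx 0 (by omega) (by omega)
  have x1 := hx 1 (by omega) (by omega)
  have x3 := hx 3 (by omega) (by omega)
  have x4 := hx 4 (by omega) (by omega)
  have p := mon_le (x := x) (δ := δ) a1 b1 [(1, 0, 0, 1), (3, 2, 0, 3), (1, 3, 0, 4), (1, 0, 1, 0),
    (4, 1, 1, 1), (4, 3, 1, 3), (1, 4, 1, 4)] (by simp [*])
  have q := mon_le (x := x) (δ := δ) a1 b1 [(1, 0, 0, 3), (1, 1, 0, 4), (6, 1, 1, 3), (3, 2, 1, 4),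
    (3, 0, 2, 1), (9, 2, 2, 3), (3, 3, 2, 4), (1, 0, 3, 0), (4, 1, 3, 1), (4, 3, 3, 3),
    (1, 4, 3, 4)] (by simp [*])
  simp only [sum_range_succ, sum_range_zero, hy 0 (by omega), hy 1 (by omega), hy 2 (by omega),
    hy 3 (by omega), hy 4 le_rfl] at h1 h3
  simp [rm, Nat.choose] at h1 h3
  simp only [List.map, List.sum_cons, List.sum_nil] at p q
  have m : ‖a * b‖ ≤ 1 / 4 := by
    rw [norm_mul]; nlinarith [norm_nonneg a, norm_nonneg b]
  have u1 : 1 / 2 ≤ ‖1 + 2 * (a * b)‖ := by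
    have := norm_sub_le (1 + 2 * (a * b)) (2 * (a * b))
    rw [add_sub_cancel_right, norm_one, norm_mul, Complex.norm_two] at this
    linarith
  have u2 : 3 / 4 ≤ ‖1 + a * b‖ := by
    have := norm_sub_le (1 + a * b) (a * b)
    rw [add_sub_cancel_right, norm_one] at this
    linarith
  have p' : ‖-(3 * (a * x 2 * (1 + 2 * (a * b))))‖ ≤ 15 * δ :=
    (congrArg _ (by push_cast; linear_combination -h1)).trans_le (p.trans_eq (by push_cast; ring))
  have q' : ‖-(3 * (b * x 2 * ((1 + 2 * (a * b)) * (1 + a * b))))‖ ≤ 36 * δ :=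
    (congrArg _ (by push_cast; linear_combination -h3)).trans_le (q.trans_eq (by push_cast; ring))
  simp only [norm_neg, norm_mul, Complex.norm_ofNat] at p' q'
  have u3 := mul_le_mul u1 u2 (by norm_num) (norm_nonneg _)
  constructor
  · nlinarith [mul_nonneg (norm_nonneg a) (norm_nonneg (x 2))]
  · nlinarith [mul_nonneg (norm_nonneg b) (norm_nonneg (x 2))]

/-- The relations between the jets. -/
def Rl (u : Var → ℂ) : Prop :=
  (∀ x w k, k ≤ 4 → u (false, x :: w, k) - u (false, w ++ [x], k) = aeval u (mv x k w)) ∧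
    ∀ y w k, k ≤ 3 → u (false, w ++ [(true, y)], k) = u (false, w ++ [(false, y)], k + 1)

def L0 : Lv Var := ⟨fun v => v.2.1.length, fun v => v.2.2 ≤ 4⟩

theorem cl_mv (x : Lt) {k : ℕ} (hk : k ≤ 4) (w : List Lt) :
    Cl L0 (w.length - 1) (w.length - 1) (mv x k w) := by
  have := P354FA.mv_Q2 x hk w
  generalize mv x k w = P at this
  induction this using Submodule.span_induction with
  | mem P hP =>
    obtain ⟨c, w1, k1, w2, k2, s, e, -, rfl⟩ := hP
    have := Bool.toNat_le x.1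
    have := Bool.toNat_le x.2
    simp only [Sx] at s
    exact (Cl.x (n := w1.length) _ (show k1 ≤ 4 by omega) (show w1.length ≤ _ by omega) le_rfl).mul
      (.x (n := w2.length) _ s.1 (show w2.length ≤ _ by omega) le_rfl) (by omega)
  | zero => exact .zero
  | add P Q _ _ h h' => exact h.add h'
  | smul z P _ h => rw [zsmul_eq_mul]; exact h.zmul z

theorem walk {d : List Lt → ℕ → ℂ} {m : ℕ} {e y : ℝ} (e0 : 0 ≤ e)
    (r : ∀ x w k, List.length w + 1 = m → k ≤ 4 → ‖d (x :: w) k - d (w ++ [x]) k‖ ≤ e)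
    (β : Bool) (κ : ℕ → ℕ) (hκ : ∀ i ≤ 4, κ i ≤ 4)
    (fl : ∀ i ≤ 3, ∀ w z, d (w ++ [(β, z)]) (κ (i + 1)) = d (w ++ [(!β, z)]) (κ i))
    (h0 : ∀ w, List.length w = m → ‖d w (κ 0)‖ ≤ y) (i : ℕ) (hi : i ≤ 4) (w : List Lt)
    (hw : w.length = m) (hc : i ≤ w.countP fun x => x.1 == β) : ‖d w (κ i)‖ ≤ y + i * (m * e) := by
  have rN : ∀ k ≤ 4, ∀ w1 w2 : List Lt, w1.length + w2.length = m →
      ‖d (w1 ++ w2) k - d (w2 ++ w1) k‖ ≤ w1.length * e := fun k hk w1 => by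
    induction w1 with
    | nil => simp
    | cons x w1 ih =>
      intro w2 h
      have a := r x (w1 ++ w2) k (by simp at h ⊢; omega) hk
      have b := ih (w2 ++ [x]) (by simp at h ⊢; omega)
      simp only [List.append_assoc, List.cons_append, List.nil_append, List.length_cons] at a b ⊢
      push_cast
      linarith [norm_sub_le_norm_sub_add_norm_sub (d (x :: (w1 ++ w2)) k)
        (d (w1 ++ (w2 ++ [x])) k) (d (w2 ++ x :: w1) k)]
  induction i generalizing w with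
  | zero => simpa using h0 w hw
  | succ i ih =>
    obtain ⟨⟨b, z⟩, hx, hb⟩ := List.countP_pos_iff.1 (show 0 < _ from (Nat.succ_pos i).trans_le hc)
    obtain rfl : b = β := by simpa using hb
    obtain ⟨w1, w2, rfl⟩ := List.append_of_mem hx
    simp only [List.length_append, List.length_cons] at hw
    have a := rN _ (hκ _ hi) (w1 ++ [(b, z)]) w2 (by simp; omega)
    have c := ih (by omega) (w2 ++ w1 ++ [(!b, z)]) (by simp; omega) (by
      simp [List.countP_cons] at hc ⊢; omega)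
    rw [← List.append_assoc w2, fl i (by omega), List.append_assoc, List.singleton_append] at a
    have l : ((w1 ++ [(b, z)]).length : ℝ) ≤ m := by exact_mod_cast (by simp; omega)
    have := norm_add_le (d (w1 ++ (b, z) :: w2) (κ (i + 1)) - d (w2 ++ w1 ++ [(!b, z)]) (κ i))
      (d (w2 ++ w1 ++ [(!b, z)]) (κ i))
    rw [sub_add_cancel] at this
    push_cast
    nlinarith [mul_le_mul_of_nonneg_right l e0]

/-- All components of order at least three are controlled by the extreme ones. -/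
theorem sym {m : ℕ} (hm : 3 ≤ m) (K : ℝ) : ∀ᶠ C in atTop, ∀ u v δ j N y, Rl u → Rl v →
    Pr L0 j N K δ u v → m - 2 ≤ j → m - 2 ≤ N →
    (∀ w k, List.length w = m → k = 0 ∨ k = 4 → ‖u (false, w, k) - v (false, w, k)‖ ≤ y) →
    ∀ w k, List.length w = m → k ≤ 4 → ‖u (false, w, k) - v (false, w, k)‖ ≤ y + C * δ (m - 2) := by
  obtain ⟨C, hC, C0⟩ := ((eventually_all.2 fun x => ev_len m fun w _ => ev_le 4 fun k hk =>
    (cl_mv x hk w).lip K).and (eventually_ge_atTop 0)).exists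
  filter_upwards [eventually_ge_atTop (4 * (m * C))] with C' hC' u v δ j N y hu hv p e1 e2 h w k
    hw hk
  have d0 := p.nn (m - 2)
  have wk := walk (d := fun w k => u (false, w, k) - v (false, w, k)) (m := m) (y := y)
    (mul_nonneg C0 d0) fun x w k e hk => by
      have := (hC x w (by omega) k hk j N δ u v (by omega) p).2
      rw [← hu.1 x w k hk, ← hv.1 x w k hk, min_self, show w.length - 1 = m - 2 by omega] at this
      exact (congrArg _ (by ring)).trans_le this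
  have f : ∀ i : ℕ, i ≤ 4 → (i : ℝ) * (m * (C * δ (m - 2))) ≤ C' * δ (m - 2) := fun i hi => by
    have : (i : ℝ) ≤ 4 := by exact_mod_cast hi
    nlinarith [mul_nonneg (mul_nonneg (Nat.cast_nonneg (α := ℝ) m) C0) d0]
  by_cases c : k ≤ w.countP fun x => x.1 == false
  · exact (wk false id (fun _ => id) (fun i hi w z => by simp [hu.2 z w i hi, hv.2 z w i hi])
      (fun w e => h w 0 e (.inl rfl)) k hk w hw c).trans (by linarith [f k hk])
  · have t := List.length_eq_countP_add_countP (fun x : Lt => x.1) (l := w)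
    have := wk true (4 - ·) (fun _ _ => Nat.sub_le _ _) (fun i hi w z => by
      simp only [hu.2 z w (4 - (i + 1)) (by omega), hv.2 z w (4 - (i + 1)) (by omega),
        show 4 - (i + 1) + 1 = 4 - i by omega, Bool.not_true]) (fun w e => h w 4 e (.inr rfl)) (4 - k) (by omega)
      w hw (by simp at t c ⊢; omega)
    rw [show 4 - (4 - k) = k by omega] at this
    linarith [f (4 - k) (by omega)]

end Vale.Agent.P354FX
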