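import Vale.Agent.P354FX.Hom
import Vale.Agent.P354FX.Defs2
import Vale.Agent.P354YK.Ins
import Vale.Agent.P354FA.Ker
import Vale.Agent.P354CV.Bas
import Vale.Agent.P354XT.Calc

/-!
The germs at a point; the values of the generators of the charts; the jets of Kerr are bounded.
-/

set_option linter.unusedSimpArgs false

noncomputable section

namespace Vale.Agent.P354FX

open Filter Set ComplexConjugate
open Vale.Agent.P354XG Vale.Agent.P354XD Vale.Agent.P354XR Vale.Agent.P354XI Vale.Agent.P354Z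
open Vale.Agent.P354FA (Lt val)
open Vale.Agent.P354YK (out Fm fv_rs cone_pos cone_is)
open Vale.Agent.P354YA (Rx rx_nb GHom PHom)
open Vale.Agent.P354XZ (Ch NF)

variable {O : Set E6} {x : E6}

/-- The value at a point and the germ at a point. -/
def evA (hx : x ∈ O) : Sm (on O) →ₐ[ℂ] ℂ := { evO ⟨x, hx⟩ with commutes' := fun z => fv_alg z hx }

theorem evA_ap (hx : x ∈ O) (f : Sm (on O)) : evA hx f = fv f x := rfl

theorem rx (hx : x ∈ O) : Rx (on {x}) (on O) id :=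
  rx_nb (Eventually.of_forall fun _ => singleton_subset_iff.2 hx)

def ev0 (x : E6) : Sm (on {x}) →ₐ[ℂ] ℂ := evA (mem_singleton x)

theorem ev0_rix (hx : x ∈ O) (f : Sm (on O)) : ev0 x ((rx hx).rix f) = evA hx f :=
  (fv_rs ((rx hx).rep f) (mem_singleton x)).trans (fv_in f hx).symm

theorem ev0_ev (x : E6) : Ev cj (ev0 x) where
  cj f := fv_cj f x
  loc f h := isUnit_of_ne (ev_nb.2 (Eventually.of_forall fun _ y hy => by
    obtain rfl : y = x := hy
    exact (ev_on (rep_sm f) (mem_singleton y)).continuousAt.eventually_ne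
      (fun e => h ((fv_in f (mem_singleton y)).trans e))))

theorem ge_hom (h : Cone O) {g : P354XE.Tw} (v : ∀ y ∈ O, VacAt g (pj y)) (hx : x ∈ O) :
    GHom (ge O g) (ge {x} g) (rx hx).rix := (rx hx).geo (cone_pos h).off _ (on_of h.op v)

theorem ge_is (h : Cone O) {g : P354XE.Tw} (v : ∀ y ∈ O, VacAt g (pj y)) (hx : x ∈ O) :
    (ge {x} g).Is := geo_is (g := fun _ => g) ((rx hx).off (cone_pos h).off) _
  ((rx hx).ev (P := fun p => VacAt g (pj p.2)) (on_of h.op v))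

/-- The values of the generators. -/
def tt (M a : ℝ) (x : E6) : Nm :=
  ![(x.2.1 : ℂ), oc x 3, 2 * zc 2 x * zc 3 x * (nq x : ℂ)⁻¹, 2 * zc 4 x * zc 5 x * (nq x : ℂ)⁻¹,
    nq x, (nq x : ℂ)⁻¹, ((x.2.1 * x.2.1 + a * a * oc x 3 * oc x 3 : ℝ) : ℂ)⁻¹, a,
    P354BF.De M a x.2.1, (P354BF.De M a x.2.1 : ℂ)⁻¹]

theorem nm_eq (h : Cone O) (hx : x ∈ O) (M a : ℝ) (u v : Sm (on O)) :
    nm (evA hx) (kk (hp _) { pm (on O) (fun _ => M) fun _ => a with h1 := u, j1 := v }) =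
      tt M a x ∧ evA hx (pm (on O) (fun _ => M) fun _ => a).M = M := by
  have z : ∀ i, evA hx ((hp _).z i) = zc i x := fun i => fv_rs (rs_z i) hx
  have n : evA hx (hp _).Ni = (nq x : ℂ)⁻¹ := fv_rs (rs_Ni (cone_pos h).off) hx
  have e1 : evA hx (hp _).kc.x = oc x 3 := fv_rs (rs_om (cone_pos h).off 3) hx
  have e2 : evA hx (hp _).N = nq x := fv_rs rs_N hx
  have e3 : evA hx (pm (on O) (fun _ => M) fun _ => a).sg = _ := fv_rs (rs_sg (cone_pos h) _ _) hx
  have e4 : evA hx (pm (on O) (fun _ => M) fun _ => a).a = a := fv_rs (rs_cst _) hx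
  have e5 : evA hx (pm (on O) (fun _ => M) fun _ => a).M = M := fv_rs (rs_cst _) hx
  have e6 : evA hx ((hp _).z 1 * (hp _).z 1 - 2 * (pm (on O) (fun _ => M) fun _ => a).M *
      (hp _).z 1 + (pm (on O) (fun _ => M) fun _ => a).a * (pm (on O) (fun _ => M) fun _ => a).a) =
      P354BF.De M a x.2.1 := by
    simp only [map_add, map_sub, map_mul, map_ofNat, z, e4, e5, P354BF.De]
    simp [zc, sq]
  refine ⟨funext fun i => ?_, e5⟩
  fin_cases i
  exacts [z 1, e1, by simp [nm, tt, kk, Hp.kc, z, n, map_ofNat],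
    by simp [nm, tt, kk, Hp.kc, z, n, map_ofNat], e2, n, e3, e4, e6, congrArg Inv.inv e6]

theorem tt_sq {M a : ℝ} (h : (tt M a x).Is) : ‖tt M a x 2‖ ^ 2 = 1 - oc x 3 ^ 2 := by
  have : tt M a x 3 = conj (tt M a x 2) := by simp [tt, zc, map_ofNat]
  have e := h.hs
  rw [this, Complex.mul_conj, Complex.normSq_eq_norm_sq] at e
  exact_mod_cast e.trans (show _ = ((1 - oc x 3 ^ 2 : ℝ) : ℂ) by simp [tt, sq])

theorem oc_le {M a : ℝ} (h : (tt M a x).Is) : |oc x 3| ≤ 1 :=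
  abs_le_one_iff_mul_self_le_one.2 (by nlinarith [sq_nonneg ‖tt M a x 2‖, tt_sq h])

theorem tt_le {M a M0 ρ : ℝ} (h : (tt M a x).Is) (ha : |a| < M) (hM : M ≤ 5 / 4 * M0) (n : An x)
    (r1 : 10 * M0 + 10 ≤ x.2.1) (r2 : x.2.1 ≤ ρ) : ‖tt M a x‖ ≤ 2 * ρ ^ 2 := by
  have a0 := abs_nonneg a
  have s : ‖tt M a x 3‖ = ‖tt M a x 2‖ := by simp [tt, zc]
  have e := tt_sq h
  have s2 : ‖tt M a x 2‖ ≤ 1 := by nlinarith [norm_nonneg (tt M a x 2)]
  have d1 : 1 ≤ P354BF.De M a x.2.1 := by unfold P354BF.De; nlinarith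
  have q : 1 ≤ x.2.1 * x.2.1 + a * a * oc x 3 * oc x 3 := by
    nlinarith [mul_self_nonneg (a * oc x 3)]
  have i1 : ∀ {u : ℝ}, 1 ≤ u → ‖(u : ℂ)⁻¹‖ ≤ 1 := fun e => by
    rw [norm_inv, Complex.norm_of_nonneg (zero_le_one.trans e)]; exact inv_le_one_of_one_le₀ e
  have k : 2 ≤ 2 * ρ ^ 2 := by nlinarith
  refine (pi_norm_le_iff_of_nonneg (by positivity)).2 fun i => ?_
  fin_cases i
  · exact (Complex.norm_of_nonneg (by linarith)).trans_le (by nlinarith)
  · exact (Complex.norm_real _).trans_le ((oc_le h).trans (by linarith))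
  · exact s2.trans (by linarith)
  · exact (s ▸ s2).trans (by linarith)
  · exact (Complex.norm_of_nonneg (by linarith [n.1])).trans_le (by linarith [n.2])
  · refine ((norm_inv _).trans (congrArg _ (Complex.norm_of_nonneg (by linarith [n.1])))).trans_le
      (le_trans ?_ k)
    exact inv_le_of_inv_le₀ two_pos (by linarith [n.1])
  · exact (i1 q).trans (by linarith)
  · exact (Complex.norm_real _).trans_le (show |a| ≤ _ by nlinarith)
  · refine (Complex.norm_of_nonneg (by linarith)).trans_le ?_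
    unfold P354BF.De
    nlinarith [sq_abs a]
  · exact (i1 d1).trans (by linarith)

theorem md_nz {A : Type} [CommRing A] [Algebra ℂ A] {C : Ch A} (h : C.Is) (b : ℤ) :
    ∃ K, ∀ x, C.md x (NF.nz C b) ≤ K := by
  obtain ⟨K, hK⟩ := (isCompact_Icc (a := (1 / 2 : ℝ)) (b := 3 / 2)).exists_bound_of_continuousOn
    ((continuousOn_zpow₀ (-b)).mono fun t e => ne_of_gt (lt_of_lt_of_le (by norm_num) e.1))
  refine ⟨K, fun x => le_trans (le_of_eq ?_) (hK _ (h.N_le x))⟩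
  have e := (h.ibp x.1).ev_re (f := C.N) (by rw [Ibp.Re, h.c_eq, h.c_N]) x.2
  have : (C.B x.1).ev x.2 (NF.nz C b) = (C.B x.1).ev x.2 C.N ^ (-b) := by
    rw [NF.nz, ← MonoidHom.coe_coe, ← Units.coe_map, map_zpow, Units.val_zpow_eq_zpow_val]; rfl
  rw [Ch.md, Ibp.md, this, e, ← Complex.ofReal_zpow, Complex.norm_real]
  rfl

/-- The jets of Kerr. -/
theorem bd_out (M0 : ℝ) (w : List Lt) (k : ℕ) : ∀ᶠ K in atTop, ∀ (c : Cs) (E : Est) x, c.M = M0 →
    Cone E.O2 → E.Eqs c → x ∈ E.O2 → An x → 1 ≤ x.2.1 → 0 ≤ uu M0 x + x.2.1 →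
    ‖fv (val (out (E.K2 c)) (false, w, k)) x‖ ≤ K := by
  let Φ : Fm := ⟨{p : Cs × Est // p.1.M = M0 ∧ Cone p.2.O2 ∧ p.2.Eqs p.1}, M0, fun j => j.1.1,
    fun j => j.1.2, fun _ => 1, fun _ => 1⟩
  have h : Φ.Ok := ⟨fun j => j.2.1, fun j => j.2.2.1, fun j => j.2.2.2, fun _ => ⟨le_rfl, le_rfl⟩⟩
  rcases isEmpty_or_nonempty Φ.J with e | ⟨⟨j⟩⟩
  · exact Eventually.of_forall fun _ c E _ a b d => e.elim ⟨(c, E), a, b, d⟩
  obtain ⟨K, hK⟩ := (P354FA.sy_Jh h.is h.cmp.ref j false w k).2 0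
  obtain ⟨L, hL⟩ := md_nz h.is (-P354FA.bw w k)
  filter_upwards [eventually_ge_atTop (L * |K|)] with C hC c E x a b d m n r u
  let y := h.pk ⟨(c, E), a, b, d⟩ x ⟨m, n, r, u⟩
  have e : val (out Φ.kc) (false, w, k) =
      NF.nz h.ch (-P354FA.bw w k) * P354FA.Jh h.ch (P354YK.nfO Φ.kc) false w k := by
    rw [P354FA.Jh, ← mul_assoc, ← P354FA.nz_add, neg_add_cancel, P354FA.nz_zero, one_mul]; rfl
  have f := val_hom (out_hom (P354YK.hpi_hom (fun j : Φ.J => hp (on (Φ.E j).O2)) y.1)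
    (p := Φ.pm) (p' := E.p2 c) ⟨rfl, rfl, rfl, rfl, rfl⟩) false w k
  have g : h.ch.md y (val (out Φ.kc) (false, w, k)) = _ := congrArg (‖fv · x‖) f
  have k1 := hK y
  rw [P354YF.jet_zero] at k1
  refine g.symm.trans_le (le_trans ?_ hC)
  rw [e, Ch.md, Ibp.md_mul]
  refine mul_le_mul (hL y) (k1.trans ((mul_le_mul (le_abs_self K) (Real.rpow_le_one_of_one_le_of_nonpos
    (P354YK.one_le_rr h.is y) (neg_nonpos.2 (by positivity))) (Real.rpow_nonneg
      (P354YK.rr_pos h.is y).le _) (abs_nonneg K)).trans_eq (mul_one _))) (norm_nonneg _)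
    ((norm_nonneg _).trans (hL y))

end Vale.Agent.P354FX
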