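import Vale.Agent.P354FX.Dec

/-!
The derivatives of P0 and P4 in the transverse frame against the jets in another frame.
-/

set_option linter.unusedSimpArgs false

noncomputable section

namespace Vale.Agent.P354FX

open MvPolynomial Filter Finset ComplexConjugate Sum
open Vale.Agent.P354XG Vale.Agent.P354XG.Geo Vale.Agent.P354XD
open Vale.Agent.P354FA (Lt Var val Gam cl Ps)

theorem inv_lip {x0 x2 x4 p : ℂ} {K δ : ℝ} (k1 : 1 ≤ K) (h : 1 ≤ K * ‖p‖) (hp : ‖p‖ ≤ K)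
    (h0 : ‖x0‖ ≤ δ) (h2 : ‖x2 - p‖ ≤ δ) (h4 : ‖x4‖ ≤ δ) (s : 7 * K ^ 5 * δ ≤ 1) :
    9 * (x2 * x2) - x0 * x4 ≠ 0 ∧ 9 * (p * p) ≠ 0 ∧ ‖(9 * (p * p))⁻¹‖ ≤ K ^ 2 ∧
      ‖(9 * (x2 * x2) - x0 * x4)⁻¹ - (9 * (p * p))⁻¹‖ ≤ K ^ 5 * δ := by
  have d0 : 0 ≤ δ := (norm_nonneg _).trans h0
  have k2 : 1 ≤ K ^ 2 := one_le_pow₀ k1
  have k3 : K ^ 3 * δ ≤ K ^ 5 * δ :=
    mul_le_mul_of_nonneg_right (pow_le_pow_right₀ k1 (by omega)) d0
  have d1 : δ ≤ 1 := by nlinarith [le_mul_of_one_le_left d0 (one_le_pow₀ (n := 5) k1)]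
  have e : ‖9 * (p * p) - (9 * (x2 * x2) - x0 * x4)‖ ≤ 28 * K * δ := by
    rw [show 9 * (p * p) - (9 * (x2 * x2) - x0 * x4) =
      x0 * x4 - 9 * ((x2 - p) * (x2 - p)) - 18 * ((x2 - p) * p) by ring]
    refine (norm_sub_le_of_le (norm_sub_le _ _) le_rfl).trans ?_
    simp only [norm_mul, Complex.norm_ofNat]
    nlinarith [mul_le_mul h0 h4 (norm_nonneg _) d0, mul_le_mul h2 h2 (norm_nonneg _) d0,
      mul_le_mul h2 hp (norm_nonneg _) d0]
  generalize 9 * (x2 * x2) - x0 * x4 = x at e ⊢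
  have y1 : 9 ≤ K ^ 2 * ‖9 * (p * p)‖ := by
    simp only [norm_mul, Complex.norm_ofNat]; nlinarith
  generalize 9 * (p * p) = y at e y1 ⊢
  have x1 : 5 ≤ K ^ 2 * ‖x‖ := by
    have := norm_add_le (y - x) x
    rw [sub_add_cancel] at this
    nlinarith [mul_le_mul_of_nonneg_left (this.trans (add_le_add e le_rfl)) (sq_nonneg K)]
  have x0 : x ≠ 0 := by rintro rfl; norm_num at x1
  have y0 : y ≠ 0 := by rintro rfl; norm_num at y1
  have a : 5 * ‖x⁻¹‖ ≤ K ^ 2 := by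
    rwa [norm_inv, ← div_eq_mul_inv, div_le_iff₀ (norm_pos_iff.2 x0)]
  have b : 9 * ‖y⁻¹‖ ≤ K ^ 2 := by
    rwa [norm_inv, ← div_eq_mul_inv, div_le_iff₀ (norm_pos_iff.2 y0)]
  refine ⟨x0, y0, by linarith [norm_nonneg y⁻¹], ?_⟩
  rw [show x⁻¹ - y⁻¹ = x⁻¹ * y⁻¹ * (y - x) by field_simp, norm_mul, norm_mul]
  have := mul_le_mul (mul_le_mul a b (by positivity) (by positivity)) e (norm_nonneg _)
    (by positivity)
  nlinarith [mul_nonneg (mul_nonneg (norm_nonneg x⁻¹) (norm_nonneg y⁻¹)) (norm_nonneg (y - x))]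

/-- The data. -/
structure Dt where
  A : Type
  A' : Type
  [i1 : CommRing A]
  [i2 : Algebra ℂ A]
  [i3 : CommRing A']
  [i4 : Algebra ℂ A']
  S : Geo A
  F2 : Fr A
  F1 : Fr A
  a : A
  b : A
  al : A
  be : A
  q : A
  φ : A →ₐ[ℂ] ℂ
  G0 : GHP A'
  ψ : A' →ₐ[ℂ] ℂ

attribute [instance] Dt.i1 Dt.i2 Dt.i3 Dt.i4

namespace Dt
variable (D : Dt)

def G2 : GHP D.A := D.F2.ghp D.S
def G1 : GHP D.A := D.F1.ghp D.S
def Gt : GHP D.A := ((D.F2.rn D.S D.a).rl D.S D.b).ghp D.S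

/-- The difference of the tables. -/
def df (G : GHP D.A) (w : List Lt) (k : ℕ) : ℝ := ‖tb D.φ G w k - tb D.ψ D.G0 w k‖

structure Ok (n : ℕ) (K : ℝ) : Prop where
  dc : Dc D.S D.F2 D.F1 D.a D.b D.al D.be D.q
  p1 : D.G1.P1 = 0
  p3 : D.G1.P3 = 0
  rf : Rf D.G0
  ev : Ev D.S.c D.φ
  ev0 : ∀ f, D.ψ (D.G0.c f) = conj (D.ψ f)
  u0 : IsUnit D.G0.P2
  k1 : 1 ≤ K
  al : ‖D.φ D.al‖ ≤ K
  be : ‖D.φ D.be‖ ≤ K
  a : ‖D.φ D.a‖ ≤ 1 / 2
  b : ‖D.φ D.b‖ ≤ 1 / 2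
  bd : ∀ w k, List.length w ≤ n → k ≤ 4 → ‖tb D.ψ D.G0 w k‖ ≤ K
  p2 : 1 ≤ K * ‖D.ψ D.G0.P2‖

variable {D} {n : ℕ} {K : ℝ} (o : D.Ok n K)
include o

theorem Ok.it : D.Gt.Is := o.dc.nb.is o.dc.is

theorem Ok.bo (w : List Lt) {k : ℕ} (hk : k ≤ 4) : val D.G1 (false, w, k) =
    bm (D.al * D.q) (D.be * D.S.c D.q) k *
      ((w.map (bl D.al D.be D.q (D.S.c D.q))).prod * val D.Gt (false, w, k)) := by
  have := val_bo o.dc.is o.dc.nb o.dc.h1 o.dc.h3 (o.dc.eq ▸ o.dc.n1) w hk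
  rwa [← o.dc.eq] at this

theorem Ok.tr : D.Gt.P1 = 0 ∧ D.Gt.P3 = 0 ∧ D.G1.P2 = D.Gt.P2 ∧
    D.G1.P0 * D.G1.P4 = D.Gt.P0 * D.Gt.P4 := by
  have e := fun k hk => o.bo [] (k := k) hk
  have e0 := e 0 (by omega)
  have e1 := e 1 (by omega)
  have e2 := e 2 (by omega)
  have e3 := e 3 (by omega)
  have e4 := e 4 le_rfl
  have := o.dc.h1
  have := o.dc.h3
  simp only [P354FA.val_nil, Ps, bm, List.map_nil, List.prod_nil, o.p1, o.p3] at e0 e1 e2 e3 e4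
  refine ⟨?_, ?_, ?_, ?_⟩ <;> grind

/-- The boost at the point. -/
def Ok.bp : Bp := ⟨D.φ D.al, D.φ D.be, D.φ D.q, D.φ (D.S.c D.q),
  by rw [← map_mul, o.dc.h1, map_one], by rw [← map_mul, o.dc.h3, map_one]⟩

theorem Ok.bp_bd : o.bp.Bd K := by
  have e := congrArg norm o.bp.h2
  have e2 : ‖o.bp.q'‖ = ‖o.bp.q‖ := (congrArg norm (o.ev.cj _)).trans (Complex.norm_conj _)
  have : ‖o.bp.q‖ = 1 := by
    rw [norm_mul, e2, norm_one] at e
    nlinarith [norm_nonneg o.bp.q]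
  exact ⟨o.al, o.be, this, e2.trans this⟩

/-- The covariance under the boost. -/
theorem Ok.cov {I : D.A} (hI : I * (9 * (D.Gt.P2 * D.Gt.P2) - D.Gt.P0 * D.Gt.P4) = 1)
    (u : List (Lt ⊕ Bool)) (i : Fin 6) : D.φ (wG D.G1 u (sb (val D.G1) (Gam D.G1) i)) =
      (u.map o.bp.b).prod * o.bp.s i * D.φ (wG D.Gt u (sb (val D.Gt) (Gam D.Gt) i)) := by
  obtain ⟨t1, t3, t2, t4⟩ := o.tr
  have i1 : D.G1.Is := o.dc.n1.is o.dc.is
  have cb : D.S.c D.be = D.be := by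
    have := congrArg D.S.c o.dc.h1
    rw [map_mul, map_one, o.dc.h2] at this
    linear_combination D.be * this - D.S.c D.be * o.dc.h1
  have f : ∀ w k, k ≤ 4 → tb D.φ D.G1 w k = o.bp.la (false, w, k) * tb D.φ D.Gt w k :=
    fun w k hk => by
      have e : ∀ x, D.φ (bl D.al D.be D.q (D.S.c D.q) x) = o.bp.l x := by
        rintro ⟨_ | _, _ | _⟩ <;> rfl
      simp only [tb, o.bo w hk, map_mul, map_list_prod, List.map_map, Function.comp_def, e, Bp.la,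
        mul_assoc]
      congr 1
      interval_cases k <;> simp [bm, Bp.m, Ok.bp]
  have := wd_eq (φ := D.φ) (ψ := D.φ) (Jd.of_is i1 o.p1 o.p3 (I := I) (by rw [t2, t4, hI]))
    ((Jd.of_is o.it t1 t3 hI).bo o.bp) (fun s hs => ?_) u i
  · rw [Jd.sb_bo, Jd.wd_bo, map_smul] at this
    exact this
  obtain ⟨_ | _, w, k⟩ | c := s
  · exact (f w k hs).trans (map_smul D.φ _ (val D.Gt (false, w, k))).symm
  · refine (val_true i1 o.ev.cj w k).trans (Eq.trans ?_ (map_smul _ _ _).symm)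
    rw [f _ k hs, map_mul, Bp.cj_la ((o.ev.cj _).symm.trans (congrArg _ o.dc.h2))
      ((o.ev.cj _).symm.trans (congrArg _ cb)) (o.ev.cj _).symm, ← val_true o.it o.ev.cj]
    rfl
  · rfl

theorem Ok.ab {δ : ℝ} (h : ∀ k ≤ 4, D.df D.G2 [] k ≤ δ) (s : 2 * K * δ ≤ 1) :
    ‖D.φ D.a‖ ≤ 64 * K * δ ∧ ‖D.φ D.b‖ ≤ 64 * K * δ := by
  obtain ⟨z0, z1, z3, z4⟩ := o.rf.P
  have d0 : 0 ≤ δ := (norm_nonneg _).trans (h 0 (by omega))
  have r := fun k hk => tb_rl (φ := D.φ) o.dc.is o.dc.na o.dc.nb [] (k := k) hk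
  have := ab_le (x := tb D.φ D.G2 []) (δ := δ) o.a o.b (fun k hk e => by
      have := h k hk
      interval_cases k <;> simp_all [df, tb, P354FA.val_nil, Ps])
    (fun k hk => tb_rn o.dc.is o.dc.n2 o.dc.na [] hk)
    ((r 1 (by omega)).symm.trans ((congrArg D.φ o.tr.1).trans (map_zero _)))
    ((r 3 (by omega)).symm.trans ((congrArg D.φ o.tr.2.1).trans (map_zero _)))
  have e : 1 ≤ 2 * K * ‖tb D.φ D.G2 [] 2‖ := by
    have e1 : ‖tb D.φ D.G2 [] 2 - D.ψ D.G0.P2‖ ≤ δ := h 2 (by omega)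
    have e2 := norm_sub_norm_le (D.ψ D.G0.P2) (tb D.φ D.G2 [] 2)
    rw [norm_sub_rev] at e2
    nlinarith [o.p2, o.k1]
  have k := o.k1
  constructor <;> nlinarith [norm_nonneg (D.φ D.a), norm_nonneg (D.φ D.b), this.1, this.2]

/-- The two rotations and their inverses. -/
theorem Ok.rot {ε δ : ℝ} (ha : 6 * ‖D.φ D.a‖ ≤ ε) (hb : 6 * ‖D.φ D.b‖ ≤ ε) (e1 : ε ≤ 1) {m : ℕ}
    (hm : m ≤ n) :
    ((∀ w k, List.length w = m → k ≤ 4 → D.df D.G2 w k ≤ δ) → ∀ w k, List.length w = m → k ≤ 4 →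
      D.df D.Gt w k ≤ 2 * (15 * 11 ^ n) ^ 2 * (δ + ε * K)) ∧
    ((∀ w k, List.length w = m → k ≤ 4 → D.df D.Gt w k ≤ δ) → ∀ w k, List.length w = m → k ≤ 4 →
      D.df D.G2 w k ≤ 2 * (15 * 11 ^ n) ^ 2 * (δ + ε * K)) := by
  have e0 : 0 ≤ ε * K := mul_nonneg (le_trans (by positivity) ha) (by linarith [o.k1])
  have mo : ∀ {ρ L ε'}, Ne1 ρ L ε' → ε' ≤ ε → Ne1 ρ L ε := fun h e =>
    ⟨fun k a j b => (h.1 k a j b).trans e, fun x y => (h.2 x y).trans e⟩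
  have st : ∀ {ρ L δ} {f g : List Lt → ℕ → ℂ}, Ne1 ρ L ε → (∀ w k, k ≤ 4 → g w k = Rt ρ L f w k) →
      (∀ w k, List.length w = m → k ≤ 4 → ‖f w k - tb D.ψ D.G0 w k‖ ≤ δ) →
      ∀ w k, List.length w = m → k ≤ 4 →
        ‖g w k - tb D.ψ D.G0 w k‖ ≤ 15 * 11 ^ n * (δ + ε * K) := fun hL e h w k hw hk => by
    rw [e w k hk, mul_assoc]
    refine (rt_lip e1 hL w (fun w' e j hj => ⟨h w' j (e.trans hw) hj,
      o.bd w' j (by omega) hj⟩) hk).trans ?_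
    have := (norm_nonneg _).trans (h w k hw hk)
    gcongr
    exacts [by norm_num, by omega]
  have fin : 0 ≤ δ → 15 * 11 ^ n * (15 * 11 ^ n * (δ + ε * K) + ε * K) ≤
      2 * (15 * 11 ^ n) ^ 2 * (δ + ε * K) := fun d0 => by
    have c : (1 : ℝ) ≤ 15 * 11 ^ n := by nlinarith [one_le_pow₀ (n := n) (show (1 : ℝ) ≤ 11 by norm_num)]
    generalize (15 : ℝ) * 11 ^ n = c' at c
    nlinarith [mul_nonneg (mul_nonneg (zero_le_one.trans c) (sub_nonneg.2 c)) (add_nonneg d0 e0),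
      mul_nonneg (zero_le_one.trans c) d0]
  have n1 : ∀ f, ‖D.φ (D.S.c f)‖ = ‖D.φ f‖ := fun f => by rw [o.ev.cj, Complex.norm_conj]
  have a1 : ‖D.φ D.a‖ ≤ 1 := by linarith [o.a]
  have b1 : ‖D.φ D.b‖ ≤ 1 := by linarith [o.b]
  have a2 : ‖D.φ (-D.a)‖ = ‖D.φ D.a‖ := by rw [map_neg, norm_neg]
  have b2 : ‖D.φ (-D.b)‖ = ‖D.φ D.b‖ := by rw [map_neg, norm_neg]
  refine ⟨fun h w k hw hk => (st (mo (ne1_l b1 (n1 _)) hb)
    (fun w k => tb_rl o.dc.is o.dc.na o.dc.nb w) (st (mo (ne1_n a1 (n1 _)) ha)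
    (fun w k => tb_rn o.dc.is o.dc.n2 o.dc.na w) h) w k hw hk).trans
    (fin ((norm_nonneg _).trans (h w k hw hk))), fun h w k hw hk => ?_⟩
  have u := fun w k => tb_rn (φ := D.φ) (k := k) (a := -D.a) o.dc.is o.dc.na
    (by rw [rn_neg]; exact o.dc.n2) w
  have v := fun w k => tb_rl (φ := D.φ) (k := k) (a := -D.b) o.dc.is o.dc.nb
    (by rw [rl_neg]; exact o.dc.na) w
  rw [rn_neg] at u
  rw [rl_neg] at v
  exact (st (mo (ne1_n (a2 ▸ a1) (n1 _)) (a2 ▸ ha)) u (st (mo (ne1_l (b2 ▸ b1) (n1 _)) (b2 ▸ hb))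
    v h) w k hw hk).trans (fin ((norm_nonneg _).trans (h w k hw hk)))

/-- The two valuations. -/
theorem Ok.pr {δ : ℕ → ℝ} {j N : ℕ} (hj : j ≤ n) (hm : Monotone δ)
    (h : ∀ w k, List.length w ≤ j → k ≤ 4 → D.df D.Gt w k ≤ δ w.length)
    (s : 7 * K ^ 5 * δ (N / 2) ≤ 1) : ∃ I I0,
    I * (9 * (D.Gt.P2 * D.Gt.P2) - D.Gt.P0 * D.Gt.P4) = 1 ∧ (Jd.of D.G0 I0).Is ∧
    Pr LV j N (K ^ 2) (fun i => K ^ 5 * δ i) (fun s => D.φ ((Jd.of D.Gt I).u s))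
      fun s => D.ψ ((Jd.of D.G0 I0).u s) := by
  obtain ⟨z0, z1, z3, z4⟩ := o.rf.P
  have k := o.k1
  have k5 : 1 ≤ K ^ 5 := one_le_pow₀ k
  have h0 := h [] 0 j.zero_le (by omega)
  have h2 := h [] 2 j.zero_le (by omega)
  have h4 := h [] 4 j.zero_le le_rfl
  simp only [df, tb, P354FA.val_nil, Ps, z0, z4, map_zero, sub_zero, List.length_nil] at h0 h2 h4
  have d0 : ∀ i, 0 ≤ δ i := fun i => ((norm_nonneg _).trans h0).trans (hm i.zero_le)
  obtain ⟨e1, e2, e3, e4⟩ := inv_lip k o.p2 (o.bd [] 2 n.zero_le (by omega)) h0 h2 h4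
    ((mul_le_mul_of_nonneg_left (hm (Nat.zero_le _)) (by positivity)).trans s)
  obtain ⟨I, hI⟩ := (o.ev.loc (9 * (D.Gt.P2 * D.Gt.P2) - D.Gt.P0 * D.Gt.P4)
    (by simpa [map_ofNat] using e1)).exists_left_inv
  obtain ⟨I0, hI0⟩ : ∃ I0, I0 * (9 * (D.G0.P2 * D.G0.P2) - D.G0.P0 * D.G0.P4) = 1 := by
    rw [z0, zero_mul, sub_zero, ← map_ofNat (algebraMap ℂ D.A') 9]
    exact (((IsUnit.mk0 (9 : ℂ) (by norm_num)).map _).mul (o.u0.mul o.u0)).exists_left_inv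
  have i1 : D.φ I = _ := eq_inv_of_mul_eq_one_left (by simpa [map_ofNat] using congrArg D.φ hI)
  have i2 : D.ψ I0 = (9 * (D.ψ D.G0.P2 * D.ψ D.G0.P2))⁻¹ :=
    eq_inv_of_mul_eq_one_left (by simpa [map_ofNat, z0] using congrArg D.ψ hI0)
  rw [← i1, ← i2] at e4
  rw [← i2] at e3
  refine ⟨I, I0, hI, Jd.of_is o.rf.is z1 z3 hI0, fun a b e =>
    mul_le_mul_of_nonneg_left (hm e) (by positivity), mul_nonneg (by positivity) (d0 _),
    by nlinarith [d0 (N / 2)], fun s hs e => ?_⟩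
  have f : ∀ w k, List.length w ≤ j → k ≤ 4 → ‖tb D.ψ D.G0 w k‖ ≤ K ^ 2 ∧
      ‖tb D.φ D.Gt w k - tb D.ψ D.G0 w k‖ ≤ K ^ 5 * δ w.length := fun w k hw hk =>
    ⟨(o.bd w k (hw.trans hj) hk).trans (by nlinarith),
      (h w k hw hk).trans (le_mul_of_one_le_left (d0 _) k5)⟩
  obtain ⟨_ | _, w, k⟩ | _ | _ := s
  · exact f w k e hs
  · have := f (w.map cl) k ((List.length_map _).trans_le e) hs
    rw [List.length_map, ← Complex.norm_conj, ← Complex.norm_conj (_ - _), map_sub,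
      ← val_true o.it o.ev.cj, ← val_true o.rf.is o.ev0] at this
    exact this
  · exact ⟨e3, e4⟩
  · rw [← Complex.norm_conj, ← o.ev0] at e3
    rw [← Complex.norm_conj, map_sub, ← o.ev.cj, ← o.ev0] at e4
    exact ⟨e3, e4⟩

omit o

/-- The derivatives of the small quantities in the transverse frame. -/
theorem rev (n : ℕ) (K : ℝ) : ∀ᶠ C in atTop, ∀ (D : Dt) (δ : ℕ → ℝ), D.Ok n K → Monotone δ →
    (∀ w k, List.length w ≤ n → k ≤ 4 → D.df D.G2 w k ≤ δ w.length) → C * δ (n / 2) ≤ 1 →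
    ‖D.φ D.a‖ ≤ C * δ 0 ∧ ‖D.φ D.b‖ ≤ C * δ 0 ∧
    (∀ w k, List.length w ≤ n → k ≤ 4 → D.df D.Gt w k ≤ C * δ w.length) ∧
    ∀ i u, lv i + u.length ≤ n →
      ‖D.φ (wG D.G1 u (sb (val D.G1) (Gam D.G1) i))‖ ≤ C * δ (lv i + u.length) := by
  obtain ⟨C0, h0, p0⟩ := ((rev0 n (K ^ 2)).and (eventually_ge_atTop 0)).exists
  set C1 : ℝ := 2 * (15 * 11 ^ n) ^ 2 * (1 + 384 * K ^ 2) with hC1
  filter_upwards [eventually_ge_atTop (384 * K), eventually_ge_atTop C1,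
    eventually_ge_atTop (7 * K ^ 5 * C1), eventually_ge_atTop (K ^ (n + 2) * (C0 * (K ^ 5 * C1)))]
    with C c1 c2 c3 c4 D δ o hm h s
  have k := o.k1
  have d0 : ∀ i, 0 ≤ δ i := fun i =>
    ((norm_nonneg _).trans (h [] 0 n.zero_le (by omega))).trans (hm i.zero_le)
  have m0 := hm (n / 2).zero_le
  have s0 : 384 * K * δ 0 ≤ 1 :=
    (mul_le_mul c1 m0 (d0 _) (by linarith)).trans s
  have e0 := mul_le_mul_of_nonneg_right c1 (d0 0)
  obtain ⟨a, b⟩ := o.ab (δ := δ 0) (fun k hk => h [] k n.zero_le hk) (by nlinarith [d0 0])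
  have t : ∀ w k, List.length w ≤ n → k ≤ 4 → D.df D.Gt w k ≤ C1 * δ w.length := fun w k hw hk => by
    refine ((o.rot (ε := 384 * K * δ 0) (by linarith) (by linarith) s0 hw).1
      (fun w' k e => e ▸ h w' k (e ▸ hw)) w k rfl hk).trans ?_
    rw [hC1, mul_assoc _ (1 + _)]
    gcongr
    nlinarith [mul_le_mul_of_nonneg_left (hm w.length.zero_le) (sq_nonneg K)]
  obtain ⟨I, I0, hI, i0, p⟩ := o.pr (δ := fun i => C1 * δ i) (N := n) le_rfl
    (fun a b e => mul_le_mul_of_nonneg_left (hm e) (by positivity)) t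
    (by nlinarith [mul_le_mul_of_nonneg_right c3 (d0 (n / 2))])
  refine ⟨by nlinarith [d0 0], by nlinarith [d0 0], fun w k hw hk =>
    (t w k hw hk).trans (mul_le_mul_of_nonneg_right c2 (d0 _)), fun i u e => ?_⟩
  have := (h0 _ _ _ _ D.φ D.ψ _ n n le_rfl (Jd.of_is o.it o.tr.1 o.tr.2.1 hI) i0 o.rf.sb p).1 i u
    (by omega)
  rw [o.cov hI, norm_mul]
  refine (mul_le_mul ((o.bp_bd.le k u i).trans (pow_le_pow_right₀ k (show _ ≤ n + 2 by omega)))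
    this (norm_nonneg _) (by positivity)).trans ?_
  nlinarith [mul_le_mul_of_nonneg_right c4 (d0 (lv i + u.length))]

/-- The hypotheses of the converse estimate. -/
structure Cv (D : Dt) (n : ℕ) (K : ℝ) (η : ℕ → ℝ) (d : ℝ) : Prop where
  ok : D.Ok n K
  mono : Monotone η
  pos : 0 ≤ η 0
  eta : ∀ (w : List Lt) k, w.length ≤ n → k = 0 ∨ k = 4 →
    ‖D.φ (wG D.G1 (w.map inl) (Ps D.G1 k))‖ ≤ η w.length
  low : ∀ w k, List.length w ≤ 2 → k ≤ 4 → D.df D.G2 w k ≤ d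

theorem Ok.mono {D : Dt} {n m : ℕ} {K : ℝ} (o : D.Ok n K) (h : m ≤ n) : D.Ok m K :=
  { o with bd := fun w k e => o.bd w k (e.trans h) }

theorem tub0 {n : ℕ} (hn : 2 ≤ n) (K : ℝ) (m : ℕ) (hm : m ≤ n) : ∀ᶠ C in atTop,
    ∀ (D : Dt) η d, Cv D n K η d → C * (η (n / 2) + d) ≤ 1 →
    ∀ w k, List.length w ≤ m → k ≤ 4 → D.df D.Gt w k ≤ C * (η w.length + d) := by
  have nn : ∀ {D η d}, Cv D n K η d → 0 ≤ d ∧ ∀ i, 0 ≤ η i := fun c =>
    ⟨(norm_nonneg _).trans (c.low [] 0 (by simp) (by omega)), fun i => c.pos.trans (c.mono i.zero_le)⟩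
  have base : ∀ᶠ C in atTop, ∀ (D : Dt) η d, Cv D n K η d → C * (η (n / 2) + d) ≤ 1 →
      ∀ w k, List.length w ≤ 2 → k ≤ 4 → D.df D.Gt w k ≤ C * (η w.length + d) := by
    filter_upwards [rev 2 K, eventually_ge_atTop 0] with C h c0 D η d c s w k hw hk
    have := nn c
    refine ((h D (fun _ => d) (c.ok.mono hn) monotone_const c.low (le_trans ?_ s)).2.2.1 w k hw
      hk).trans ?_ <;> nlinarith [this.2 (n / 2), this.2 w.length]
  induction m with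
  | zero => exact base.mono fun C h D η d c s w k hw => h D η d c s w k (by omega)
  | succ m ih =>
    by_cases m2 : m + 1 ≤ 2
    · exact base.mono fun C h D η d c s w k hw => h D η d c s w k (by omega)
    obtain ⟨C0, ⟨⟨h0, h1⟩, h2⟩, p0⟩ := ((((ih (by omega)).and (rev0 n (K ^ 2))).and
      (sym (m := m + 1) (by omega) (K ^ 2))).and (eventually_ge_atTop 0)).exists
    filter_upwards [eventually_ge_atTop C0, eventually_ge_atTop (7 * K ^ 5 * C0),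
      eventually_ge_atTop (K ^ (n + 2) + 2 * (C0 * (K ^ 5 * C0)))] with C c1 c2 c3 D η d c s w k
      hw hk
    obtain ⟨d0, e0⟩ := nn c
    have o := c.ok
    have k1 := o.k1
    have p1 : ∀ i, 0 ≤ η i + d := fun i => add_nonneg (e0 i) d0
    have t := h0 D η d c ((mul_le_mul_of_nonneg_right c1 (p1 _)).trans s)
    rcases hw.eq_or_lt with hw | hw
    swap
    · exact (t w k (by omega) hk).trans (mul_le_mul_of_nonneg_right c1 (p1 _))
    have mo : Monotone fun i => C0 * (η i + d) := fun a b e =>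
      mul_le_mul_of_nonneg_left (by linarith [c.mono e]) p0
    obtain ⟨I, I0, hI, i0, p⟩ := o.pr (N := m + 1) (show m ≤ n by omega) mo t (by
      have := mul_le_mul_of_nonneg_left (mo (show (m + 1) / 2 ≤ n / 2 by omega))
        (show 0 ≤ 7 * K ^ 5 by positivity)
      nlinarith [mul_le_mul_of_nonneg_right c2 (p1 (n / 2))])
    have q := (h1 _ _ _ _ D.φ D.ψ _ m (m + 1) hm (Jd.of_is o.it o.tr.1 o.tr.2.1 hI) i0 o.rf.sb p).2
    have := h2 _ _ _ m (m + 1) (K ^ (n + 2) * η (m + 1) + C0 * (K ^ 5 * (C0 * (η m + d))))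
      (rl_val o.it D.φ) (rl_val o.rf.is D.ψ) ⟨p.mono, p.pos, p.half, fun s => p.bd (inl s)⟩
      (by omega) (by omega) (fun w k hw hk => ?_) w k hw hk
    · refine this.trans ?_
      have a1 := mul_le_mul_of_nonneg_left (mo (show m + 1 - 2 ≤ m + 1 by omega))
        (show 0 ≤ C0 * K ^ 5 by positivity)
      have a2 := mul_le_mul_of_nonneg_left (mo m.le_succ) (show 0 ≤ C0 * K ^ 5 by positivity)
      rw [hw]
      nlinarith [mul_le_mul_of_nonneg_right c3 (p1 (m + 1)),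
        mul_nonneg (show 0 ≤ K ^ (n + 2) by positivity) d0]
    obtain ⟨x, w, rfl⟩ := List.exists_cons_of_length_eq_add_one hw
    obtain rfl : w.length = m := by simpa using hw
    have a := q k x w hk le_rfl le_rfl
    obtain ⟨i, hi⟩ : ∃ i, ∀ G : GHP D.A, sb (val G) (Gam G) i = Ps G k := by
      rcases hk with rfl | rfl
      exacts [⟨0, fun _ => rfl⟩, ⟨1, fun _ => rfl⟩]
    have b := o.cov hI ((x :: w).map inl) i
    have b2 := congrArg ((((x :: w).map inl).map o.bp.inv.b).prod * o.bp.inv.s i * ·) b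
    simp only [hi] at b2
    rw [← mul_assoc _ (_ * _), Bp.inv_mul, one_mul] at b2
    have b3 := mul_le_mul ((o.bp_bd.inv.le k1 ((x :: w).map inl) i).trans (pow_le_pow_right₀ k1
      (show _ ≤ n + 2 by simpa using hm))) (c.eta (x :: w) k hm hk) (norm_nonneg _) (by positivity)
    rw [← norm_mul, b2] at b3
    exact (congrArg _ (sub_add_cancel _ _).symm).trans_le
      ((norm_add_le_of_le a b3).trans_eq (add_comm _ _))

/-- The jets in the frame F2 are bounded by the derivatives of P0 and P4 and low orders. -/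
theorem tubeb {n : ℕ} (hn : 2 ≤ n) (K : ℝ) : ∀ᶠ C in atTop, ∀ (D : Dt) η d, Cv D n K η d →
    C * (η (n / 2) + d) ≤ 1 →
    ∀ w k, List.length w ≤ n → k ≤ 4 → D.df D.G2 w k ≤ C * (η w.length + d) := by
  obtain ⟨C0, h0, p0⟩ := ((tub0 hn K n le_rfl).and (eventually_ge_atTop 0)).exists
  filter_upwards [eventually_ge_atTop C0, eventually_ge_atTop (384 * K),
    eventually_ge_atTop (2 * (15 * 11 ^ n) ^ 2 * (C0 + 384 * K ^ 2))] with C c1 c2 c3 D η d c s w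
    k hw hk
  have o := c.ok
  have k1 := o.k1
  have d0 : 0 ≤ d := (norm_nonneg _).trans (c.low [] 0 (by simp) (by omega))
  have e0 : ∀ i, 0 ≤ η i := fun i => c.pos.trans (c.mono i.zero_le)
  have s0 : 384 * K * d ≤ 1 :=
    (mul_le_mul c2 (le_add_of_nonneg_left (e0 _)) d0 (by linarith)).trans s
  obtain ⟨a, b⟩ := o.ab (fun k hk => c.low [] k (by simp) hk) (by nlinarith)
  refine ((o.rot (ε := 384 * K * d) (by linarith) (by linarith) s0 hw).2 (fun w' k e hk => e ▸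
    h0 D η d c ((mul_le_mul_of_nonneg_right c1 (add_nonneg (e0 _) d0)).trans s) w' k (e ▸ hw) hk)
    w k rfl hk).trans (le_trans ?_ (mul_le_mul_of_nonneg_right c3 (add_nonneg (e0 _) d0)))
  rw [mul_assoc _ (C0 + _)]
  gcongr
  nlinarith [mul_nonneg (sq_nonneg K) (e0 w.length)]

end Dt

end Vale.Agent.P354FX
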