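import Vale.Agent.P354XD.Rot

/-!
The covariant derivatives of the curvature tensor as multilinear functions of lists of vectors.
-/

namespace Vale.Agent.P354FX

open Vale.Agent.P354XG Vale.Agent.P354XG.Geo

variable {A : Type*} [CommRing A]

/-- Components of covariant tensors. -/
abbrev Tn (ι A : Type*) := List ι → A

section ev
variable {ι : Type*} [Fintype ι]

/-- The contraction of the first index, and of all indices. -/
def ct (Y : ι → A) (T : Tn ι A) : Tn ι A := fun I => ∑ a, Y a * T (a :: I)

def ev : List (ι → A) → Tn ι A → A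
  | [], T => T []
  | Y :: l, T => ev l (ct Y T)

theorem ct_add (Y : ι → A) (T T' : Tn ι A) : ct Y (T + T') = ct Y T + ct Y T' := by
  funext I; simp only [ct, Pi.add_apply, mul_add, Finset.sum_add_distrib]
theorem ct_smul (Y : ι → A) (s : A) (T : Tn ι A) : ct Y (s • T) = s • ct Y T := by
  funext I; simp only [ct, Pi.smul_apply, smul_eq_mul, Finset.mul_sum, mul_left_comm]
theorem add_ct (X Y : ι → A) (T : Tn ι A) : ct (X + Y) T = ct X T + ct Y T := by
  funext I; simp only [ct, Pi.add_apply, add_mul, Finset.sum_add_distrib]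
theorem smul_ct (Y : ι → A) (s : A) (T : Tn ι A) : ct (s • Y) T = s • ct Y T := by
  funext I; simp only [ct, Pi.smul_apply, smul_eq_mul, Finset.mul_sum, mul_assoc]

theorem ev_add (l : List (ι → A)) (T T' : Tn ι A) : ev l (T + T') = ev l T + ev l T' := by
  induction l generalizing T T' with
  | nil => rfl
  | cons Y l ih => simp only [ev, ct_add, ih]

theorem ev_smul (l : List (ι → A)) (s : A) (T : Tn ι A) : ev l (s • T) = s * ev l T := by
  induction l generalizing T with
  | nil => rfl
  | cons Y l ih => simp only [ev, ct_smul, ih]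

theorem ev_sub (l : List (ι → A)) (T T' : Tn ι A) : ev l (T - T') = ev l T - ev l T' := by
  rw [sub_eq_add_neg, ← neg_one_smul A T', ev_add, ev_smul]; ring

end ev

section ml
variable {V : Type*} [AddCommGroup V] [Module A V]

/-- Functions of lists which are linear in every entry. -/
structure ML (f : List V → A) : Prop where
  add : ∀ p l X Y, f (p ++ (X + Y) :: l) = f (p ++ X :: l) + f (p ++ Y :: l)
  smul : ∀ p l (s : A) X, f (p ++ (s • X) :: l) = s * f (p ++ X :: l)

theorem ML.cons {f : List V → A} (h : ML f) (Y : V) : ML fun l => f (Y :: l) :=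
  ⟨fun p => h.add (Y :: p), fun p => h.smul (Y :: p)⟩

theorem ML.app {f : List V → A} (h : ML f) (s : List V) : ML fun l => f (l ++ s) :=
  ⟨fun p l X Y => by simpa using h.add p (l ++ s) X Y,
    fun p l c X => by simpa using h.smul p (l ++ s) c X⟩

theorem ML.pre {f : List V → A} (h : ML f) (s : List V) : ML fun l => f (s ++ l) :=
  ⟨fun p l X Y => by simpa using h.add (s ++ p) l X Y,
    fun p l c X => by simpa using h.smul (s ++ p) l c X⟩

theorem ML.neg {f : List V → A} (h : ML f) : ML fun l => -f l :=
  ⟨fun p l X Y => by rw [h.add, neg_add], fun p l c X => by rw [h.smul, mul_neg]⟩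

theorem ML.zero : ML fun _ : List V => (0 : A) := ⟨by simp, by simp⟩

theorem ML.sum {f : List V → A} (h : ML f) {κ : Type*} (s : Finset κ) (c : κ → A) (Y : κ → V)
    (l : List V) : f ((∑ k ∈ s, c k • Y k) :: l) = ∑ k ∈ s, c k * f (Y k :: l) := by
  induction s using Finset.cons_induction with
  | empty => simpa using h.smul [] l 0 0
  | cons k s _ ih =>
    have e1 := h.add [] l (c k • Y k) (∑ k ∈ s, c k • Y k)
    have e2 := h.smul [] l (c k) (Y k)
    simp only [List.nil_append] at e1 e2
    rw [Finset.sum_cons, Finset.sum_cons, e1, e2, ih]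

omit [AddCommGroup V] [Module A V] in
/-- The sum over the entries of f with φ applied to this entry. -/
def dl (φ : V → V) : List V → (List V → A) → A
  | [], _ => 0
  | Y :: l, f => f (φ Y :: l) + dl φ l fun l' => f (Y :: l')

omit [AddCommGroup V] [Module A V] in
theorem dl_app (φ : V → V) (l s : List V) (f : List V → A) :
    dl φ (l ++ s) f = dl φ l (fun l' => f (l' ++ s)) + dl φ s fun s' => f (l ++ s') := by
  induction l generalizing f with
  | nil => simp [dl]
  | cons Y l ih => simp only [List.cons_append, dl, ih, add_assoc]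

omit [AddCommGroup V] [Module A V] in
theorem dl_congr (φ : V → V) (l : List V) {f g : List V → A}
    (h : ∀ l', l'.length = l.length → f l' = g l') : dl φ l f = dl φ l g := by
  induction l generalizing f g with
  | nil => rfl
  | cons Y l ih =>
    rw [dl, dl, h (φ Y :: l) rfl, ih fun l' e => h (Y :: l') (by simp [e])]

omit [AddCommGroup V] [Module A V] in
theorem dl_lin (φ : V → V) (l : List V) (a b : A) (f g : List V → A) :
    dl φ l (fun l' => a * f l' + b * g l') = a * dl φ l f + b * dl φ l g := by
  induction l generalizing f g with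
  | nil => simp [dl]
  | cons Y l ih => simp only [dl, ih]; ring

theorem ML.dl_add {f : List V → A} (h : ML f) (φ ψ : V → V) (l : List V) :
    dl (fun Y => φ Y + ψ Y) l f = dl φ l f + dl ψ l f := by
  induction l generalizing f with
  | nil => simp [dl]
  | cons Y l ih =>
    have := h.add [] l (φ Y) (ψ Y)
    simp only [List.nil_append] at this
    simp only [dl, this, ih (h.cons Y)]; ring

end ml

theorem ml_ev {ι : Type*} [Fintype ι] (T : Tn ι A) : ML fun l => ev l T := by
  constructor
  · intro p l X Y
    induction p generalizing T with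
    | nil => simp only [List.nil_append, ev, add_ct, ev_add]
    | cons Z p ih => exact ih _
  · intro p l s X
    induction p generalizing T with
    | nil => simp only [List.nil_append, ev, smul_ct, ev_smul]
    | cons Z p ih => exact ih _

/-- The change of the frame. -/
theorem ML.frame {V ι κ : Type*} [AddCommGroup V] [Module A V] [Fintype ι] {f : List V → A}
    (h : ML f) (e : ι → V) (e' : κ → V) (L : κ → ι → A) (he : ∀ x, e' x = ∑ y, L x y • e y)
    (w : List κ) : f (w.map e') = ev (w.map L) fun w' => f (w'.map e) := by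
  induction w generalizing f with
  | nil => rfl
  | cons x w ih =>
    rw [List.map_cons, ih (h.cons _), List.map_cons, ev]
    congr 1
    funext w'
    rw [he, h.sum]
    rfl

variable [Algebra ℂ A] (S : Geo A)

theorem D_ev (D : Der A) (l : List (Vec A)) (T : Tn (Fin 4) A) :
    D (ev l T) = ev l (fun I => D (T I)) + dl (dv D) l fun l' => ev l' T := by
  induction l generalizing T with
  | nil => simp [ev, dl]
  | cons Y l ih =>
    have : (fun I => D (ct Y T I)) = ct Y (fun I => D (T I)) + ct (dv D Y) T := by
      funext I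
      simp only [ct, map_sum, D_mul, Pi.add_apply, dv, Finset.sum_add_distrib, mul_comm]
    simp only [ev, dl, ih, this, ev_add, add_assoc]

/-- The connection term and the covariant derivative. -/
def cn (a : Fin 4) : List (Fin 4) → Tn (Fin 4) A → A
  | [], _ => 0
  | b :: I, T => ∑ f, S.Γ a b f * T (f :: I) + cn a I fun J => T (b :: J)

def cov (T : Tn (Fin 4) A) : Tn (Fin 4) A
  | [] => 0
  | a :: I => S.L a (T I) - cn S a I T

theorem cn_ct (a : Fin 4) (I : List (Fin 4)) (Y : Vec A) (T : Fin 4 → Tn (Fin 4) A) :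
    cn S a I (fun J => ∑ b, Y b * T b J) = ∑ b, Y b * cn S a I (T b) := by
  induction I generalizing T with
  | nil => simp [cn]
  | cons c I ih =>
    rw [cn, ih fun b J => T b (c :: J)]
    simp only [cn, Fin.sum_univ_four]; ring

theorem ev_cn (X : Vec A) (l : List (Vec A)) (T : Tn (Fin 4) A) :
    ev l (fun I => ∑ a, X a * cn S a I T) = dl (S.Gm X) l fun l' => ev l' T := by
  induction l generalizing T with
  | nil => simp [ev, dl, cn]
  | cons Y l ih =>
    have : ct Y (fun I => ∑ a, X a * cn S a I T) =
        ct (S.Gm X Y) T + fun I => ∑ a, X a * cn S a I (ct Y T) := by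
      funext I
      have e := fun a => cn_ct S a I Y fun b J => T (b :: J)
      have e' : ct Y T = fun J => ∑ b, Y b * T (b :: J) := rfl
      simp only [Pi.add_apply, e', e]
      simp only [ct, cn, Gm, Fin.sum_univ_four]
      ring
    simp only [ev, dl, this, ev_add, ih]

variable {S}

theorem vert_cov {D : Der A} (v : Vert S D) {T : Tn (Fin 4) A} (h : ∀ I, D (T I) = 0)
    (I : List (Fin 4)) : D (cov S T I) = 0 := by
  have k : ∀ a I (T : Tn (Fin 4) A), (∀ I, D (T I) = 0) → D (cn S a I T) = 0 := by
    intro a I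
    induction I with
    | nil => exact fun _ _ => D_zero _
    | cons b I ih =>
      intro T h
      simp only [cn, D_add, map_sum, D_mul, h, v.Γ, ih _ fun J => h (b :: J)]
      simp
  cases I with
  | nil => exact D_zero _
  | cons a I => rw [cov, D_sub, v.L, h, k a I T h, D_zero, sub_zero]

theorem act_ev (u : Op A) {T : Tn (Fin 4) A} (h1 : ∀ I, S.H (T I) = 0) (h2 : ∀ I, S.Hb (T I) = 0)
    (l : List (Vec A)) :
    S.act u (ev l T) = ev (u.X :: l) (cov S T) + dl (S.nab u) l fun l' => ev l' T := by
  have e : ct u.X (cov S T) = (fun I => S.act u (T I)) - fun I => ∑ a, u.X a * cn S a I T := by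
    funext I
    simp only [ct, cov, Pi.sub_apply, act_apply, h1, h2, mul_sub, Finset.sum_sub_distrib]
    ring
  have e2 := (ml_ev T).dl_add (dv (S.act u)) (S.Gm u.X) l
  have e3 : S.nab u = fun Y => dv (S.act u) Y + S.Gm u.X Y := rfl
  rw [D_ev, ev, e, ev_sub, ev_cn, e3, e2]
  ring

variable (S)

/-- The components of the curvature. -/
def W0 : Tn (Fin 4) A
  | [i, j, k, l] => S.W (Pi.single i 1) (Pi.single j 1) (Pi.single k 1) (Pi.single l 1)
  | _ => 0

/-- The covariant derivative of order l.length - 4 of the curvature on the list l. -/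
def Jt (l : List (Vec A)) : A := ev l ((cov S)^[l.length - 4] (W0 S))

theorem ml_Jt : ML (Jt S) :=
  ⟨fun p l X Y => by simpa [Jt] using (ml_ev _).add p l X Y,
    fun p l s X => by simpa [Jt] using (ml_ev _).smul p l s X⟩

theorem Jt_four (X Y Z U : Vec A) : Jt S [X, Y, Z, U] = S.W X Y Z U := by
  have e : ∀ X : Vec A, X = X 0 • Pi.single 0 1 + X 1 • Pi.single 1 1 + X 2 • Pi.single 2 1 +
      X 3 • Pi.single 3 1 := fun X => by
    funext d; fin_cases d <;> simp
  have e1 : ∀ Y Z U, S.W X Y Z U = ∑ a, X a * S.W (Pi.single a 1) Y Z U := fun Y Z U => by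
    conv_lhs => rw [e X]
    simp only [W_add1, W_smul1, Fin.sum_univ_four]
  have e2 : ∀ X Z U, S.W X Y Z U = ∑ a, Y a * S.W X (Pi.single a 1) Z U := fun X Z U => by
    conv_lhs => rw [e Y]
    simp only [W_add2, W_smul2, Fin.sum_univ_four]
  have e3 : ∀ X Y U, S.W X Y Z U = ∑ a, Z a * S.W X Y (Pi.single a 1) U := fun X Y U => by
    conv_lhs => rw [e Z]
    simp only [W_add3, W_smul3, Fin.sum_univ_four]
  have e4 : ∀ X Y Z, S.W X Y Z U = ∑ a, U a * S.W X Y Z (Pi.single a 1) := fun X Y Z => by
    conv_lhs => rw [e U]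
    simp only [W_add4, W_smul4, Fin.sum_univ_four]
  simp only [Jt, List.length_cons, List.length_nil, Nat.sub_self, Function.iterate_zero, id, ev, ct,
    W0, ← e1, ← e2, ← e3, ← e4, zero_add, Nat.reduceAdd]

variable {S}

theorem vert_it {D : Der A} (v : Vert S D) (m : ℕ) (I : List (Fin 4)) :
    D ((cov S)^[m] (W0 S) I) = 0 := by
  induction m generalizing I with
  | zero =>
    have z : ∀ i : Fin 4, dv D (Pi.single i 1 : Vec A) = (0 : A) • Pi.single i 1 := fun i => by
      funext d
      by_cases e : d = i <;> simp [dv, e]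
    show D (W0 S I) = 0
    unfold W0
    split
    · simp only [v.W, z, W_smul1, W_smul2, W_smul3, W_smul4, zero_mul, add_zero]
    · exact D_zero _
  | succ m ih => rw [Function.iterate_succ_apply']; exact vert_cov v ih I

/-- The law of the derivative. -/
theorem act_Jt (h : S.Is) (u : Op A) (l : List (Vec A)) (X Y Z U : Vec A) :
    Jt S (u.X :: l ++ [X, Y, Z, U]) = S.act u (Jt S (l ++ [X, Y, Z, U])) -
      dl (S.nab u) l (fun l' => Jt S (l' ++ [X, Y, Z, U])) -
      dl (S.nab u) [X, Y, Z, U] fun s => Jt S (l ++ s) := by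
  have e := act_ev u (vert_it h.vertH l.length) (vert_it h.vertHb l.length) (l ++ [X, Y, Z, U])
  have e1 : Jt S (l ++ [X, Y, Z, U]) = ev (l ++ [X, Y, Z, U]) ((cov S)^[l.length] (W0 S)) := by
    simp [Jt]
  have e2 : Jt S (u.X :: l ++ [X, Y, Z, U]) =
      ev (u.X :: (l ++ [X, Y, Z, U])) (cov S ((cov S)^[l.length] (W0 S))) := by
    rw [← Function.iterate_succ_apply' (cov S)]
    simp [Jt]
  rw [e1, e2, e, sub_sub, ← dl_app (S.nab u) l [X, Y, Z, U] (Jt S),
    dl_congr (f := Jt S) (g := fun l' => ev l' ((cov S)^[l.length] (W0 S))) _ _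
      fun l' e => by simp [Jt, e]]
  ring

end Vale.Agent.P354FX
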