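import Vale.Agent.P354FX.Ten

/-!
Forms with the symmetries of the Weyl tensor: components in a null frame, changes of the frame.
-/

set_option linter.unusedSimpArgs false

namespace Vale.Agent.P354FX

open Vale.Agent.P354XG Vale.Agent.P354XG.Geo Vale.Agent.P354XD

variable {A : Type*} [CommRing A] [Algebra ℂ A]

/-- The symmetries; the trace is taken in the frame l n m mb. -/
structure Wy (B : List (Vec A) → A) (l n m mb : Vec A) : Prop where
  ml : ML B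
  a12 : ∀ X Y Z U, B [X, Y, Z, U] = -B [Y, X, Z, U]
  a34 : ∀ X Y Z U, B [X, Y, Z, U] = -B [X, Y, U, Z]
  cyc : ∀ X Y Z U, B [X, Y, Z, U] + B [Y, Z, X, U] + B [Z, X, Y, U] = 0
  tr : ∀ Y Z, -B [l, Y, Z, n] - B [n, Y, Z, l] + B [m, Y, Z, mb] + B [mb, Y, Z, m] = 0

/-- The five components. -/
def pk (B : List (Vec A) → A) (l n m mb : Vec A) : ℕ → A
  | 0 => -B [l, m, l, m]
  | 1 => -B [l, n, l, m]
  | 2 => B [n, mb, l, m]
  | 3 => -B [n, l, n, mb]
  | 4 => -B [n, mb, n, mb]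
  | _ => 0

theorem half {x : A} (e : 2 * x = 0) : x = 0 := by
  linear_combination hf A * e - x * two_hf (A := A)

section lin
variable {B : List (Vec A) → A} (h : ML B) (X Y Z U V : Vec A) (s : A)
include h
omit [Algebra ℂ A]
theorem ML.a1 : B [X + Y, Z, U, V] = B [X, Z, U, V] + B [Y, Z, U, V] := h.add [] _ X Y
theorem ML.a2 : B [Z, X + Y, U, V] = B [Z, X, U, V] + B [Z, Y, U, V] := h.add [Z] _ X Y
theorem ML.a3 : B [Z, U, X + Y, V] = B [Z, U, X, V] + B [Z, U, Y, V] := h.add [Z, U] _ X Y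
theorem ML.a4 : B [Z, U, V, X + Y] = B [Z, U, V, X] + B [Z, U, V, Y] := h.add [Z, U, V] _ X Y
theorem ML.s1 : B [s • X, Z, U, V] = s * B [X, Z, U, V] := h.smul [] _ s X
theorem ML.s2 : B [Z, s • X, U, V] = s * B [Z, X, U, V] := h.smul [Z] _ s X
theorem ML.s3 : B [Z, U, s • X, V] = s * B [Z, U, X, V] := h.smul [Z, U] _ s X
theorem ML.s4 : B [Z, U, V, s • X] = s * B [Z, U, V, X] := h.smul [Z, U, V] _ s X
end lin

namespace Wy
variable {B : List (Vec A) → A} {l n m mb : Vec A} (h : Wy B l n m mb)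
include h

omit [Algebra ℂ A] in
theorem pr : Wy B n l mb m := ⟨h.ml, h.a12, h.a34, h.cyc, fun Y Z => by linear_combination h.tr Y Z⟩
omit [Algebra ℂ A] in
theorem sw : Wy B l n mb m := ⟨h.ml, h.a12, h.a34, h.cyc, fun Y Z => by linear_combination h.tr Y Z⟩

theorem d12 (X Z U : Vec A) : B [X, X, Z, U] = 0 := half (by linear_combination h.a12 X X Z U)
theorem d34 (X Y Z : Vec A) : B [X, Y, Z, Z] = 0 := half (by linear_combination h.a34 X Y Z Z)

theorem pair (X Y Z U : Vec A) : B [X, Y, Z, U] = B [Z, U, X, Y] := by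
  apply sub_eq_zero.1
  apply half
  linear_combination h.cyc X Y Z U + h.cyc Y Z U X - h.cyc Z U X Y - h.cyc U X Y Z -
    h.a34 Y Z U X - h.a34 Z U Y X + h.a34 X Y U Z + h.a34 U X Z Y - h.a12 Z X Y U -
    h.a12 U Y Z X + h.a34 X Z U Y + h.a34 Y U Z X

theorem lm_lmb : B [l, m, l, mb] = 0 := by
  have e := h.tr l l
  rw [h.d12, h.d34, h.a12 m l, h.a12 mb l, h.pair l mb l m] at e
  apply half; linear_combination -e

theorem lm_mmb : B [l, m, m, mb] = -B [l, n, l, m] := by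
  have e := h.tr l m
  rw [h.d12, h.d34, h.a12 m l, h.a12 n l, h.a34 l n m l] at e
  linear_combination -e

theorem lm_nm : B [l, m, n, m] = 0 := by
  have e := h.tr m m
  rw [h.d12, h.d34, h.a34 l m m n, h.a34 n m m l, h.pair n m l m] at e
  apply half; linear_combination e

theorem ln_mmb : B [l, n, m, mb] = B [n, mb, l, m] - B [n, m, l, mb] := by
  have e := h.cyc l n m mb
  rw [h.a12 m l, h.pair l m n mb] at e
  linear_combination e

theorem ln_ln : B [l, n, l, n] = -(B [n, mb, l, m] + B [n, m, l, mb]) := by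
  have e := h.tr l n
  rw [h.d12, h.a12 m l, h.a12 mb l, h.a12 n l, h.a34 l n n l, h.pair l m, h.pair l mb] at e
  linear_combination -e

theorem mmb_mmb : B [m, mb, m, mb] = -(B [n, mb, l, m] + B [n, m, l, mb]) := by
  have e := h.tr m mb
  rw [h.d12, h.a12 mb m, h.a34 m mb mb m, h.a34 l m mb n, h.a34 n m mb l, h.pair l m] at e
  linear_combination e

end Wy

/-- The table of all components. -/
structure Tb (B : List (Vec A) → A) (l n m mb : Vec A) (p q : ℕ → A) : Prop where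
  s1 : ∀ Z U, B [n, l, Z, U] = -B [l, n, Z, U]
  s2 : ∀ Z U, B [m, l, Z, U] = -B [l, m, Z, U]
  s3 : ∀ Z U, B [mb, l, Z, U] = -B [l, mb, Z, U]
  s4 : ∀ Z U, B [m, n, Z, U] = -B [n, m, Z, U]
  s5 : ∀ Z U, B [mb, n, Z, U] = -B [n, mb, Z, U]
  s6 : ∀ Z U, B [mb, m, Z, U] = -B [m, mb, Z, U]
  t1 : ∀ Z U, B [Z, U, n, l] = -B [Z, U, l, n]
  t2 : ∀ Z U, B [Z, U, m, l] = -B [Z, U, l, m]
  t3 : ∀ Z U, B [Z, U, mb, l] = -B [Z, U, l, mb]
  t4 : ∀ Z U, B [Z, U, m, n] = -B [Z, U, n, m]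
  t5 : ∀ Z U, B [Z, U, mb, n] = -B [Z, U, n, mb]
  t6 : ∀ Z U, B [Z, U, mb, m] = -B [Z, U, m, mb]
  a : B [l, n, l, n] = -(p 2 + q 2) ∧ B [l, n, l, m] = -p 1 ∧ B [l, n, l, mb] = -q 1 ∧
    B [l, n, n, m] = q 3 ∧ B [l, n, n, mb] = p 3 ∧ B [l, n, m, mb] = p 2 - q 2
  b : B [l, m, l, n] = -p 1 ∧ B [l, m, l, m] = -p 0 ∧ B [l, m, l, mb] = 0 ∧
    B [l, m, n, m] = 0 ∧ B [l, m, n, mb] = p 2 ∧ B [l, m, m, mb] = p 1
  c : B [l, mb, l, n] = -q 1 ∧ B [l, mb, l, m] = 0 ∧ B [l, mb, l, mb] = -q 0 ∧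
    B [l, mb, n, m] = q 2 ∧ B [l, mb, n, mb] = 0 ∧ B [l, mb, m, mb] = -q 1
  d : B [n, m, l, n] = q 3 ∧ B [n, m, l, m] = 0 ∧ B [n, m, l, mb] = q 2 ∧
    B [n, m, n, m] = -q 4 ∧ B [n, m, n, mb] = 0 ∧ B [n, m, m, mb] = q 3
  e : B [n, mb, l, n] = p 3 ∧ B [n, mb, l, m] = p 2 ∧ B [n, mb, l, mb] = 0 ∧
    B [n, mb, n, m] = 0 ∧ B [n, mb, n, mb] = -p 4 ∧ B [n, mb, m, mb] = -p 3
  f : B [m, mb, l, n] = p 2 - q 2 ∧ B [m, mb, l, m] = p 1 ∧ B [m, mb, l, mb] = -q 1 ∧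
    B [m, mb, n, m] = q 3 ∧ B [m, mb, n, mb] = -p 3 ∧ B [m, mb, m, mb] = -(p 2 + q 2)

namespace Wy
variable {B : List (Vec A) → A} {l n m mb : Vec A} (h : Wy B l n m mb)
include h

theorem tb : Tb B l n m mb (pk B l n m mb) (pk B l n mb m) := by
  have a4 := h.a12 l n n m
  have a5 := h.a12 l n n mb
  have b3 := h.lm_lmb
  have b4 := h.lm_nm
  have b6 := h.lm_mmb
  have c5 := h.sw.lm_nm
  have c6 : B [l, mb, m, mb] = B [l, n, l, mb] := by rw [h.a34, h.sw.lm_mmb, neg_neg]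
  have d6 := h.pr.sw.lm_mmb
  have e4 := h.pr.lm_lmb
  have e6 : B [n, mb, m, mb] = B [n, l, n, mb] := by rw [h.a34, h.pr.lm_mmb, neg_neg]
  refine ⟨fun _ _ => h.a12 _ _ _ _, fun _ _ => h.a12 _ _ _ _, fun _ _ => h.a12 _ _ _ _,
    fun _ _ => h.a12 _ _ _ _, fun _ _ => h.a12 _ _ _ _, fun _ _ => h.a12 _ _ _ _,
    fun _ _ => h.a34 _ _ _ _, fun _ _ => h.a34 _ _ _ _, fun _ _ => h.a34 _ _ _ _,
    fun _ _ => h.a34 _ _ _ _, fun _ _ => h.a34 _ _ _ _, fun _ _ => h.a34 _ _ _ _,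
    ?_, ?_, ?_, ?_, ?_, ?_⟩ <;> simp only [pk, neg_neg, true_and, and_true]
  · exact ⟨h.ln_ln, a4, a5, h.ln_mmb⟩
  · exact ⟨h.pair _ _ _ _, b3, b4, h.pair _ _ _ _, b6⟩
  · exact ⟨h.pair _ _ _ _, (h.pair _ _ _ _).trans b3, h.pair _ _ _ _, c5, c6⟩
  · exact ⟨(h.pair _ _ _ _).trans a4, (h.pair _ _ _ _).trans b4, (h.pair _ _ _ _).trans e4, d6⟩
  · exact ⟨(h.pair _ _ _ _).trans a5, (h.pair _ _ _ _).trans c5, e4, e6⟩
  · exact ⟨(h.pair _ _ _ _).trans h.ln_mmb, (h.pair _ _ _ _).trans b6, (h.pair _ _ _ _).trans c6,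
      (h.pair _ _ _ _).trans d6, (h.pair _ _ _ _).trans e6, h.mmb_mmb⟩

/-- The connection terms. -/
theorem shift {φ : Vec A → Vec A} {k1 k2 k3 k4 : A} (e : φ l = -(k1 • mb) - k2 • m ∧
    φ n = -(k3 • m) - k4 • mb ∧ φ m = -(k1 • n) - k4 • l ∧ φ mb = -(k3 • l) - k2 • n)
    {k : ℕ} (hk : k ≤ 4) : pk (fun s => dl φ s B) l n m mb k =
      -(k1 * ((4 - k : ℤ) * pk B l n m mb (k + 1)) + k3 * (k * pk B l n m mb (k - 1))) := by
  have T := h.tb
  have e' : φ l = (-k1) • mb + (-k2) • m ∧ φ n = (-k3) • m + (-k4) • mb ∧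
      φ m = (-k1) • n + (-k4) • l ∧ φ mb = (-k3) • l + (-k2) • n := by
    simp only [e, neg_smul, sub_eq_add_neg, and_self]
  generalize pk B l n m mb = p, pk B l n mb m = q at T ⊢
  interval_cases k <;>
    simp only [pk, dl, e', h.ml.a1, h.ml.a2, h.ml.a3, h.ml.a4, h.ml.s1, h.ml.s2, h.ml.s3, h.ml.s4,
      h.d12, h.d34, T.s1, T.s2, T.s3, T.s4, T.s5, T.s6, T.t1, T.t2, T.t3, T.t4, T.t5, T.t6, T.a,
      T.b, T.c, T.d, T.e, T.f] <;> push_cast <;> ring

end Wy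

variable {S : Geo A} {F : Fr A} {B : List (Vec A) → A}

/-- The components in the frame F. -/
def pF (B : List (Vec A) → A) (F : Fr A) : ℕ → A := pk B F.l F.n F.m F.mb

/-- The matrix of the null rotation with the parameter a. -/
def rm (a : A) (k j : ℕ) : A := if k ≤ j then ((4 - k).choose (j - k) : A) * a ^ (j - k) else 0

theorem Wy.rn (h : Wy B F.l F.n F.m F.mb) (a : A) {k : ℕ} (hk : k ≤ 4) :
    pF B (F.rn S a) k = ∑ j ∈ Finset.range 5, rm a k j * pF B F j := by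
  have T := h.tb
  simp only [pF, Finset.sum_range_succ, Finset.sum_range_zero]
  generalize pk B F.l F.n F.m F.mb = p, pk B F.l F.n F.mb F.m = q at T ⊢
  interval_cases k <;>
    simp only [pk, Fr.rn, h.ml.a1, h.ml.a2, h.ml.a3, h.ml.a4, h.ml.s1, h.ml.s2, h.ml.s3, h.ml.s4,
      h.d12, h.d34, T.s1, T.s2, T.s3, T.s4, T.s5, T.s6, T.t1, T.t2, T.t3, T.t4, T.t5, T.t6, T.a,
      T.b, T.c, T.d, T.e, T.f] <;> simp [rm, Nat.choose] <;> ring

theorem Wy.rl (h : Wy B F.l F.n F.m F.mb) (b : A) {k : ℕ} (hk : k ≤ 4) :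
    pF B (F.rl S b) k = ∑ j ∈ Finset.range 5, rm b (4 - k) (4 - j) * pF B F j := by
  have T := h.tb
  simp only [pF, Finset.sum_range_succ, Finset.sum_range_zero]
  generalize pk B F.l F.n F.m F.mb = p, pk B F.l F.n F.mb F.m = q at T ⊢
  interval_cases k <;>
    simp only [pk, Fr.rl, h.ml.a1, h.ml.a2, h.ml.a3, h.ml.a4, h.ml.s1, h.ml.s2, h.ml.s3, h.ml.s4,
      h.d12, h.d34, T.s1, T.s2, T.s3, T.s4, T.s5, T.s6, T.t1, T.t2, T.t3, T.t4, T.t5, T.t6, T.a,
      T.b, T.c, T.d, T.e, T.f] <;> simp [rm, Nat.choose] <;> ring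

/-- The factors of a boost. -/
def bm (x y : A) : ℕ → A
  | 0 => x ^ 2
  | 1 => x
  | 2 => 1
  | 3 => y
  | _ => y ^ 2

theorem ML.bo (h : ML B) {al be q : A} (h1 : al * be = 1) (h3 : q * S.c q = 1) {k : ℕ}
    (hk : k ≤ 4) : pF B (F.bo S al be q) k = bm (al * q) (be * S.c q) k * pF B F k := by
  interval_cases k <;> simp only [pF, pk, bm, Fr.bo, h.s1, h.s2, h.s3, h.s4]
  · ring
  · linear_combination -(al * q * B [F.l, F.n, F.l, F.m]) * h1
  · linear_combination B [F.n, F.mb, F.l, F.m] * (q * S.c q * h1 + h3)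
  · linear_combination -(be * S.c q * B [F.n, F.l, F.n, F.mb]) * h1
  · ring

/-- The covariant derivatives of the curvature have the symmetries. -/
theorem wy_Jt (h : S.Is) (N : F.WN S) (l : List (Vec A)) :
    Wy (fun s => Jt S (l ++ s)) F.l F.n F.m F.mb := by
  have M : Null S F.l F.n F.m F.mb := N.nl
  induction hn : l.length generalizing l with
  | zero =>
    obtain rfl := List.length_eq_zero_iff.1 hn
    exact ⟨ml_Jt S, by simpa only [List.nil_append, Jt_four] using Is.W_anti12,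
      by simpa only [List.nil_append, Jt_four] using h.W_anti34,
      by simpa only [List.nil_append, Jt_four] using h.W_cyc,
      by simpa only [List.nil_append, Jt_four] using M.ric h⟩
  | succ k ih =>
    obtain ⟨V, l, rfl⟩ := List.exists_cons_of_length_eq_add_one hn
    have hl : l.length = k := by simpa using hn
    obtain ⟨u, hu⟩ : ∃ u, u = hat S F.l F.n F.m F.mb V := ⟨_, rfl⟩
    have e := act_Jt h u l
    rw [show u.X = V by rw [hu]; rfl] at e
    have w := ih l hl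
    have z : ∀ (a b c d : A) (s t r q : List (Vec A)), (∀ l', l'.length = k → a * Jt S (l' ++ s) +
        b * Jt S (l' ++ t) + (c * Jt S (l' ++ r) + d * Jt S (l' ++ q)) = 0) →
        a * dl (S.nab u) l (fun l' => Jt S (l' ++ s)) + b * dl (S.nab u) l (fun l' => Jt S (l' ++ t)) +
        (c * dl (S.nab u) l (fun l' => Jt S (l' ++ r)) +
          d * dl (S.nab u) l (fun l' => Jt S (l' ++ q))) = 0 := fun a b c d s t r q hf => by
      have k1 := dl_lin (S.nab u) l 1 1 (fun l' => a * Jt S (l' ++ s) + b * Jt S (l' ++ t))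
        fun l' => c * Jt S (l' ++ r) + d * Jt S (l' ++ q)
      rw [dl_congr _ _ (g := fun l' => 0 * 0 + 0 * 0) fun l' e => by
        linear_combination hf l' (e.trans hl), dl_lin, dl_lin, dl_lin] at k1
      linear_combination -k1
    refine ⟨(ml_Jt S).pre _, fun X Y Z U => ?_, fun X Y Z U => ?_, fun X Y Z U => ?_,
      fun Y Z => ?_⟩
    · have k1 := z 1 1 0 0 [X, Y, Z, U] [Y, X, Z, U] [] [] fun l' e => by
        linear_combination (ih l' e).a12 X Y Z U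
      have k2 := congrArg (S.act u) (w.a12 X Y Z U)
      simp only [e, dl, D_neg] at k2 ⊢
      linear_combination k2 - k1 - w.a12 (S.nab u X) Y Z U - w.a12 X (S.nab u Y) Z U -
        w.a12 X Y (S.nab u Z) U - w.a12 X Y Z (S.nab u U)
    · have k1 := z 1 1 0 0 [X, Y, Z, U] [X, Y, U, Z] [] [] fun l' e => by
        linear_combination (ih l' e).a34 X Y Z U
      have k2 := congrArg (S.act u) (w.a34 X Y Z U)
      simp only [e, dl, D_neg] at k2 ⊢
      linear_combination k2 - k1 - w.a34 (S.nab u X) Y Z U - w.a34 X (S.nab u Y) Z U -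
        w.a34 X Y (S.nab u Z) U - w.a34 X Y Z (S.nab u U)
    · have k1 := z 1 1 1 0 [X, Y, Z, U] [Y, Z, X, U] [Z, X, Y, U] [] fun l' e => by
        linear_combination (ih l' e).cyc X Y Z U
      have k2 := congrArg (S.act u) (w.cyc X Y Z U)
      simp only [e, dl, D_add, D_zero] at k2 ⊢
      linear_combination k2 - k1 - w.cyc (S.nab u X) Y Z U - w.cyc X (S.nab u Y) Z U -
        w.cyc X Y (S.nab u Z) U - w.cyc X Y Z (S.nab u U)
    · have k1 := z (-1) (-1) 1 1 [F.l, Y, Z, F.n] [F.n, Y, Z, F.l] [F.m, Y, Z, F.mb]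
        [F.mb, Y, Z, F.m] fun l' e => by linear_combination (ih l' e).tr Y Z
      have k2 := congrArg (S.act u) (w.tr Y Z)
      obtain ⟨t1, t2, t3, t4⟩ := M.table h u (hu ▸ WNull.gauge h N V) rfl rfl rfl rfl
      generalize -S.dot (S.nab u F.l) F.m = c1, -S.dot (S.nab u F.l) F.mb = c2,
        -S.dot (S.nab u F.n) F.mb = c3, -S.dot (S.nab u F.n) F.m = c4 at t1 t2 t3 t4
      simp only [sub_eq_add_neg, ← neg_smul] at t1 t2 t3 t4
      have a1 := w.ml.a1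
      have a4 := w.ml.a4
      have s1 := w.ml.s1
      have s4 := w.ml.s4
      simp only [e, dl, D_add, D_sub, D_neg, D_zero, t1, t2, t3, t4, a1, a4, s1, s4] at k2 ⊢
      linear_combination k2 - k1 - w.tr (S.nab u Y) Z - w.tr Y (S.nab u Z)

end Vale.Agent.P354FX
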